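import Mathlib

/-!
Asymptotic traces: finite families of vectors indexed along a filter define Hilbert-Schmidt type
seminorms, and a `*`-algebra of operators with an asymptotically cyclic trace extends to a norm
closed `*`-algebra of operators approximated in both one-sided seminorms.
-/

noncomputable section

open Filter Topology Complex
open scoped InnerProductSpace ComplexConjugate

namespace Vale.Agent.P078

variable {ι κ L : Type*} [NormedAddCommGroup L] [InnerProductSpace ℂ L] [CompleteSpace L]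

/-- The cells of `i` as a linear map from operators to a Hilbert sum. -/
def cellMap (cell : ι → Finset κ) (vec : κ → L) (i : ι) :
    (L →L[ℂ] L) →ₗ[ℂ] PiLp 2 (fun _ : cell i => L) where
  toFun X := WithLp.toLp 2 fun c => X (vec c)
  map_add' X Y := by ext c; simp
  map_smul' a X := by ext c; simp

/-- Hilbert-Schmidt seminorm of `X` on the cells of `i`. -/
def hsNorm (cell : ι → Finset κ) (vec : κ → L) (i : ι) (X : L →L[ℂ] L) : ℝ :=
  ‖cellMap cell vec i X‖

/-- Partial trace of `X` on the cells of `i`. -/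
def cellTr (cell : ι → Finset κ) (vec : κ → L) (i : ι) (X : L →L[ℂ] L) : ℂ :=
  ∑ c ∈ cell i, ⟪vec c, X (vec c)⟫_ℂ

/-- Families of cells along a filter, and a `*`-algebra on which the trace of cells is
asymptotically cyclic and right multiplication is asymptotically bounded. -/
structure TraceSys (ι κ L : Type*) [NormedAddCommGroup L] [InnerProductSpace ℂ L]
    [CompleteSpace L] where
  /-- filter of refinement -/
  F : Filter ι
  neBot : F.NeBot
  /-- cells -/
  cell : ι → Finset κ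
  /-- vector of a cell -/
  vec : κ → L
  /-- total mass -/
  mass : ℝ
  mass_le : ∀ᶠ i in F, ∑ c ∈ cell i, ‖vec c‖ ^ 2 ≤ mass
  /-- the algebra of exact elements -/
  alg : StarSubalgebra ℂ (L →L[ℂ] L)
  exists_tr : ∀ W ∈ alg, ∃ t, Tendsto (fun i => cellTr cell vec i W) F (𝓝 t)
  tr_comm : ∀ V ∈ alg, ∀ W ∈ alg,
    Tendsto (fun i => cellTr cell vec i (V * W) - cellTr cell vec i (W * V)) F (𝓝 0)
  right : ∀ W ∈ alg, ∃ K, ∀ (D : L →L[ℂ] L) (η : ℝ), 0 ≤ η →
    (∀ᶠ i in F, hsNorm cell vec i D ≤ η) → ∀ η' > K * η, ∀ᶠ i in F,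
      hsNorm cell vec i (D * W) ≤ η'

namespace TraceSys

variable (S : TraceSys ι κ L)

/-- The seminorm of cells. -/
abbrev hs (i : ι) (X : L →L[ℂ] L) : ℝ := hsNorm S.cell S.vec i X

/-- The trace of cells. -/
abbrev ct (i : ι) (X : L →L[ℂ] L) : ℂ := cellTr S.cell S.vec i X

instance : S.F.NeBot := S.neBot

variable {S}

lemma hs_nonneg (i : ι) (X : L →L[ℂ] L) : 0 ≤ S.hs i X := norm_nonneg _

lemma hs_add_le (i : ι) (X Y : L →L[ℂ] L) : S.hs i (X + Y) ≤ S.hs i X + S.hs i Y := by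
  simp only [hs, hsNorm, map_add]; exact norm_add_le _ _

lemma hs_le_sub (i : ι) (X Y : L →L[ℂ] L) : S.hs i X ≤ S.hs i (X - Y) + S.hs i Y := by
  simpa using hs_add_le (S := S) i (X - Y) Y

lemma hs_sub_comm (i : ι) (X Y : L →L[ℂ] L) : S.hs i (X - Y) = S.hs i (Y - X) := by
  simp only [hs, hsNorm, map_sub]; exact norm_sub_rev _ _

lemma hs_smul (i : ι) (a : ℂ) (X : L →L[ℂ] L) : S.hs i (a • X) = ‖a‖ * S.hs i X := by
  simp only [hs, hsNorm, map_smul]; exact norm_smul _ _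

lemma hs_sq (i : ι) (X : L →L[ℂ] L) :
    S.hs i X ^ 2 = ∑ c ∈ S.cell i, ‖X (S.vec c)‖ ^ 2 := by
  rw [hs, hsNorm, PiLp.norm_sq_eq_of_L2]
  exact (S.cell i).sum_coe_sort (fun c => ‖X (S.vec c)‖ ^ 2)

lemma hs_mul_le (i : ι) (X Y : L →L[ℂ] L) : S.hs i (X * Y) ≤ ‖X‖ * S.hs i Y := by
  have h : S.hs i (X * Y) ^ 2 ≤ (‖X‖ * S.hs i Y) ^ 2 := by
    rw [mul_pow, hs_sq, hs_sq, Finset.mul_sum]
    refine Finset.sum_le_sum fun c _ => ?_
    rw [← mul_pow]
    exact pow_le_pow_left₀ (norm_nonneg _) (X.le_opNorm _) 2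
  exact le_of_pow_le_pow_left₀ two_ne_zero (mul_nonneg (norm_nonneg _) (hs_nonneg _ _)) h

lemma hs_one_le : ∀ᶠ i in S.F, S.hs i 1 ≤ Real.sqrt S.mass := by
  filter_upwards [S.mass_le] with i hi
  refine Real.le_sqrt_of_sq_le ?_
  rw [hs_sq]
  simpa using hi

lemma hs_le_norm (X : L →L[ℂ] L) :
    ∀ᶠ i in S.F, S.hs i X ≤ ‖X‖ * Real.sqrt S.mass := by
  filter_upwards [hs_one_le (S := S)] with i hi
  calc S.hs i X = S.hs i (X * 1) := by rw [mul_one]
    _ ≤ ‖X‖ * S.hs i 1 := hs_mul_le _ _ _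
    _ ≤ _ := mul_le_mul_of_nonneg_left hi (norm_nonneg _)

lemma inner_cellMap (i : ι) (X Y : L →L[ℂ] L) :
    ⟪cellMap S.cell S.vec i X, cellMap S.cell S.vec i Y⟫_ℂ = S.ct i (star X * Y) := by
  rw [PiLp.inner_apply, ct, cellTr, ← (S.cell i).sum_coe_sort]
  refine Finset.sum_congr rfl fun c _ => ?_
  rw [ContinuousLinearMap.star_eq_adjoint, mul_apply_eq_comp,
    ContinuousLinearMap.adjoint_inner_right]
  rfl

lemma norm_ct_mul_le (i : ι) (X Y : L →L[ℂ] L) :
    ‖S.ct i (X * Y)‖ ≤ S.hs i (star X) * S.hs i Y := by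
  rw [← star_star X, ← inner_cellMap, star_star]
  exact norm_inner_le_norm _ _

lemma ct_star_mul_self (i : ι) (X : L →L[ℂ] L) :
    S.ct i (star X * X) = ((S.hs i X ^ 2 : ℝ) : ℂ) := by
  rw [← inner_cellMap, inner_self_eq_norm_sq_to_K, hs, hsNorm]
  push_cast
  rfl

lemma ct_add (i : ι) (X Y : L →L[ℂ] L) : S.ct i (X + Y) = S.ct i X + S.ct i Y := by
  simp [ct, cellTr, Finset.sum_add_distrib]

lemma ct_smul (i : ι) (a : ℂ) (X : L →L[ℂ] L) : S.ct i (a • X) = a * S.ct i X := by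
  simp [ct, cellTr, Finset.mul_sum]

lemma ct_sub (i : ι) (X Y : L →L[ℂ] L) : S.ct i (X - Y) = S.ct i X - S.ct i Y := by
  simp [ct, cellTr, Finset.sum_sub_distrib]

variable (S)

/-- Operators approximated by exact elements, in both one-sided seminorms. -/
def carrierBB : Set (L →L[ℂ] L) :=
  {X | ∀ η > 0, ∃ X' ∈ S.alg, ∀ᶠ i in S.F,
    S.hs i (X - X') ≤ η ∧ S.hs i (star X - star X') ≤ η}

variable {S}

lemma bb_alg {W : L →L[ℂ] L} (hW : W ∈ S.alg) : W ∈ S.carrierBB := by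
  intro η hη
  refine ⟨W, hW, Eventually.of_forall fun i => ?_⟩
  simp [hs, hsNorm, hη.le]

lemma bb_star {X : L →L[ℂ] L} (hX : X ∈ S.carrierBB) : star X ∈ S.carrierBB := by
  intro η hη
  obtain ⟨X', hX', h⟩ := hX η hη
  exact ⟨star X', star_mem hX', h.mono fun i hi => by simpa using And.symm hi⟩

lemma bb_add {X Y : L →L[ℂ] L} (hX : X ∈ S.carrierBB) (hY : Y ∈ S.carrierBB) :
    X + Y ∈ S.carrierBB := by
  intro η hη
  obtain ⟨X', hX', h1⟩ := hX (η / 2) (half_pos hη)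
  obtain ⟨Y', hY', h2⟩ := hY (η / 2) (half_pos hη)
  refine ⟨X' + Y', add_mem hX' hY', ?_⟩
  filter_upwards [h1, h2] with i a b
  constructor
  · rw [show X + Y - (X' + Y') = X - X' + (Y - Y') by abel]
    exact (hs_add_le _ _ _).trans (by linarith [a.1, b.1])
  · rw [star_add, star_add, show star X + star Y - (star X' + star Y') =
      star X - star X' + (star Y - star Y') by abel]
    exact (hs_add_le _ _ _).trans (by linarith [a.2, b.2])

lemma bb_smul (a : ℂ) {X : L →L[ℂ] L} (hX : X ∈ S.carrierBB) : a • X ∈ S.carrierBB := by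
  intro η hη
  obtain ⟨X', hX', h⟩ := hX (η / (‖a‖ + 1)) (by positivity)
  refine ⟨a • X', SMulMemClass.smul_mem a hX', ?_⟩
  filter_upwards [h] with i hi
  have hle : ∀ x, 0 ≤ x → x ≤ η / (‖a‖ + 1) → ‖a‖ * x ≤ η := by
    intro x hx0 hx
    rw [le_div_iff₀ (by positivity)] at hx
    nlinarith
  simp only [← smul_sub, star_smul, hs_smul, norm_star]
  exact ⟨hle _ (hs_nonneg _ _) hi.1, hle _ (hs_nonneg _ _) hi.2⟩

/-- An operator approximated by members of the carrier is a member. -/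
lemma bb_of_approx {X : L →L[ℂ] L}
    (h : ∀ η > 0, ∃ Y ∈ S.carrierBB, ∀ᶠ i in S.F,
      S.hs i (X - Y) ≤ η ∧ S.hs i (star X - star Y) ≤ η) :
    X ∈ S.carrierBB := by
  intro η hη
  obtain ⟨Y, hY, h1⟩ := h (η / 2) (half_pos hη)
  obtain ⟨Y', hY', h2⟩ := hY (η / 2) (half_pos hη)
  refine ⟨Y', hY', ?_⟩
  filter_upwards [h1, h2] with i a b
  constructor
  · rw [show X - Y' = X - Y + (Y - Y') by abel]
    exact (hs_add_le _ _ _).trans (by linarith [a.1, b.1])
  · rw [show star X - star Y' = star X - star Y + (star Y - star Y') by abel]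
    exact (hs_add_le _ _ _).trans (by linarith [a.2, b.2])

lemma isClosed_bb : IsClosed S.carrierBB := by
  refine isClosed_of_closure_subset fun X hX => bb_of_approx fun η hη => ?_
  obtain ⟨Y, hY, hd⟩ :=
    Metric.mem_closure_iff.1 hX (η / (Real.sqrt S.mass + 1)) (by positivity)
  rw [dist_eq_norm, lt_div_iff₀ (by positivity)] at hd
  refine ⟨Y, hY, ?_⟩
  have hb : ‖X - Y‖ * Real.sqrt S.mass ≤ η := by nlinarith [norm_nonneg (X - Y)]
  filter_upwards [hs_le_norm (S := S) (X - Y), hs_le_norm (S := S) (star X - star Y)] with i a b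
  refine ⟨a.trans hb, b.trans ?_⟩
  rwa [← star_sub, norm_star]

/-- The two one-sided seminorms agree asymptotically on the carrier. -/
lemma hs_le_hs_star {D : L →L[ℂ] L} (hD : D ∈ S.carrierBB) {η : ℝ} (hη : 0 < η) :
    ∀ᶠ i in S.F, S.hs i D ≤ S.hs i (star D) + η := by
  obtain ⟨D', hD', h⟩ := hD (η / 3) (by positivity)
  have h0 := (S.tr_comm (star D') (star_mem hD') D' hD').norm
  rw [norm_zero] at h0
  have h1 := h0.eventually (eventually_le_nhds (show (0:ℝ) < (η / 3) ^ 2 by positivity))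
  filter_upwards [h, h1] with i hi hc
  have e : S.ct i (D' * star D') = ((S.hs i (star D') ^ 2 : ℝ) : ℂ) := by
    simpa using ct_star_mul_self (S := S) i (star D')
  change ‖S.ct i (star D' * D') - S.ct i (D' * star D')‖ ≤ _ at hc
  rw [ct_star_mul_self, e, ← Complex.ofReal_sub, Complex.norm_real, Real.norm_eq_abs] at hc
  have a : S.hs i D' ≤ S.hs i (star D') + η / 3 := by
    nlinarith [abs_le.1 hc, hs_nonneg (S := S) i D', hs_nonneg (S := S) i (star D')]
  have b := hs_le_sub (S := S) i D D'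
  have c := hs_le_sub (S := S) i (star D') (star D)
  rw [hs_sub_comm i (star D') (star D)] at c
  linarith [hi.1, hi.2]

lemma bb_mul_alg {D W : L →L[ℂ] L} (hD : D ∈ S.carrierBB) (hW : W ∈ S.alg) :
    D * W ∈ S.carrierBB := by
  intro η hη
  obtain ⟨K, hK⟩ := S.right W hW
  set M : ℝ := |K| + ‖W‖ + 1 with hM
  have hM0 : 0 < M := by positivity
  obtain ⟨D', hD', h⟩ := hD (η / M) (by positivity)
  refine ⟨D' * W, mul_mem hD' hW, ?_⟩
  have hlt : K * (η / M) < η := by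
    rw [← mul_div_assoc, div_lt_iff₀ hM0]
    nlinarith [le_abs_self K, norm_nonneg W]
  filter_upwards [h, hK (D - D') (η / M) (by positivity) (h.mono fun i hi => hi.1) η hlt]
    with i hi hr
  refine ⟨by rwa [← sub_mul], ?_⟩
  rw [star_mul, star_mul, ← mul_sub]
  refine (hs_mul_le _ _ _).trans ?_
  rw [norm_star]
  refine (mul_le_mul_of_nonneg_left hi.2 (norm_nonneg W)).trans ?_
  rw [← mul_div_assoc, div_le_iff₀ hM0]
  nlinarith [abs_nonneg K, norm_nonneg W]

lemma closure_subset_bb : closure (S.alg : Set (L →L[ℂ] L)) ⊆ S.carrierBB :=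
  closure_minimal (fun _ h => bb_alg h) isClosed_bb

lemma bb_mul_closure {D W : L →L[ℂ] L} (hD : D ∈ S.carrierBB) (hW : W ∈ S.alg.topologicalClosure) :
    D * W ∈ S.carrierBB := by
  have hW' : W ∈ closure (S.alg : Set (L →L[ℂ] L)) := hW
  have := map_mem_closure (continuous_const_mul D) hW' (t := S.carrierBB)
    fun V hV => bb_mul_alg hD hV
  rwa [isClosed_bb.closure_eq] at this

lemma hs_mul_closure_le {D W : L →L[ℂ] L} (hD : D ∈ S.carrierBB)
    (hW : W ∈ S.alg.topologicalClosure) {η : ℝ} (hη : 0 < η) :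
    ∀ᶠ i in S.F, S.hs i (D * W) ≤ ‖W‖ * S.hs i (star D) + η := by
  filter_upwards [hs_le_hs_star (bb_mul_closure hD hW) hη] with i hi
  refine hi.trans (add_le_add_left ?_ η) 
  rw [star_mul]
  refine (hs_mul_le _ _ _).trans ?_
  rw [norm_star]

/-- `q l X = (l² + X²)⁻¹`. -/
def resolv (l : ℝ) (X : L →L[ℂ] L) : L →L[ℂ] L := cfc (fun x : ℝ => (l ^ 2 + x ^ 2)⁻¹) X

/-- The truncation `l² X (l² + X²)⁻¹`. -/
def trunc (l : ℝ) (X : L →L[ℂ] L) : L →L[ℂ] L := (l ^ 2) • (X * resolv l X)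

variable {l : ℝ} {X : L →L[ℂ] L}

lemma resolv_pos_aux (hl : 0 < l) (x : ℝ) : 0 < l ^ 2 + x ^ 2 := by positivity

lemma continuous_resolv_fun (hl : 0 < l) : Continuous fun x : ℝ => (l ^ 2 + x ^ 2)⁻¹ :=
  (continuous_const.add (continuous_id.pow 2)).inv₀ fun x => (resolv_pos_aux hl x).ne'

lemma norm_resolv_le (hl : 0 < l) : ‖resolv l X‖ ≤ (l ^ 2)⁻¹ := by
  refine norm_cfc_le (by positivity) fun x _ => ?_
  rw [Real.norm_eq_abs, abs_of_pos (by have := resolv_pos_aux hl x; positivity)]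
  exact inv_anti₀ (by positivity) (by nlinarith)

lemma mul_resolv_eq (hl : 0 < l) (hX : IsSelfAdjoint X) :
    X * resolv l X = cfc (fun x : ℝ => x * (l ^ 2 + x ^ 2)⁻¹) X := by
  rw [cfc_mul (fun x : ℝ => x) _ X continuousOn_id (continuous_resolv_fun hl).continuousOn,
    cfc_id' ℝ X]
  rfl

lemma resolv_comm (_hl : 0 < l) (hX : IsSelfAdjoint X) : resolv l X * X = X * resolv l X := by
  have h := (cfc_commute_cfc (fun x : ℝ => (l ^ 2 + x ^ 2)⁻¹) (fun x : ℝ => x) X).eq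
  rwa [cfc_id' ℝ X] at h

lemma norm_mul_resolv_le (hl : 0 < l) (hX : IsSelfAdjoint X) :
    ‖X * resolv l X‖ ≤ (2 * l)⁻¹ := by
  rw [mul_resolv_eq hl hX]
  refine norm_cfc_le (by positivity) fun x _ => ?_
  rw [Real.norm_eq_abs, abs_mul, abs_inv, abs_of_pos (resolv_pos_aux hl x), ← div_eq_mul_inv,
    div_le_iff₀ (resolv_pos_aux hl x), ← div_eq_inv_mul, le_div_iff₀ (by positivity)]
  nlinarith [sq_nonneg (l - |x|), sq_abs x]

lemma resolv_spec (hl : 0 < l) (hX : IsSelfAdjoint X) :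
    resolv l X * ((l ^ 2) • 1 + X * X) = 1 ∧ ((l ^ 2) • 1 + X * X) * resolv l X = 1 := by
  have e : (l ^ 2) • (1 : L →L[ℂ] L) + X * X = cfc (fun x : ℝ => l ^ 2 + x ^ 2) X := by
    rw [cfc_const_add (l ^ 2) (fun x : ℝ => x ^ 2) X (by fun_prop), cfc_pow_id X 2, sq X,
      Algebra.algebraMap_eq_smul_one]
  have h1 : resolv l X * cfc (fun x : ℝ => l ^ 2 + x ^ 2) X = 1 := by
    rw [resolv, ← cfc_mul (fun x : ℝ => (l ^ 2 + x ^ 2)⁻¹) (fun x : ℝ => l ^ 2 + x ^ 2) X
      (continuous_resolv_fun hl).continuousOn (by fun_prop), ← cfc_one ℝ X]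
    exact cfc_congr fun x _ => inv_mul_cancel₀ (resolv_pos_aux hl x).ne'
  refine ⟨by rw [e]; exact h1, ?_⟩
  rw [e, ← h1]
  exact (cfc_commute_cfc _ _ X).eq

lemma resolv_sub (hl : 0 < l) {Y : L →L[ℂ] L} (hX : IsSelfAdjoint X) (hY : IsSelfAdjoint Y) :
    resolv l X - resolv l Y =
      resolv l X * X * ((Y - X) * resolv l Y) + resolv l X * ((Y - X) * (Y * resolv l Y)) := by
  obtain ⟨h1, -⟩ := resolv_spec hl hX
  obtain ⟨-, h2⟩ := resolv_spec hl hY
  calc resolv l X - resolv l Y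
      = resolv l X * (((l ^ 2) • 1 + Y * Y) * resolv l Y) -
          resolv l X * ((l ^ 2) • 1 + X * X) * resolv l Y := by rw [h1, h2, mul_one, one_mul]
    _ = resolv l X * (((l ^ 2) • 1 + Y * Y) - ((l ^ 2) • 1 + X * X)) * resolv l Y := by
        noncomm_ring
    _ = _ := by
        rw [show ((l ^ 2) • (1 : L →L[ℂ] L) + Y * Y) - ((l ^ 2) • 1 + X * X) =
          X * (Y - X) + (Y - X) * Y by noncomm_ring]
        noncomm_ring

lemma resolv_mem (hl : 0 < l) (hX : IsSelfAdjoint X) (hmem : X ∈ S.alg) :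
    resolv l X ∈ S.alg.topologicalClosure := by
  have h := cfc_mem_elemental (fun x : ℝ => (l ^ 2 + x ^ 2)⁻¹) X
  let T : StarSubalgebra ℝ (L →L[ℂ] L) :=
    { S.alg.topologicalClosure.toSubalgebra.restrictScalars ℝ with
      star_mem' := fun h => S.alg.topologicalClosure.star_mem' h }
  have hT : IsClosed (T : Set (L →L[ℂ] L)) := by
    have e : (T : Set (L →L[ℂ] L)) = (S.alg.topologicalClosure : Set (L →L[ℂ] L)) :=
      Set.ext fun _ => Iff.rfl
    rw [e]
    exact S.alg.isClosed_topologicalClosure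
  have hXT : X ∈ T := S.alg.le_topologicalClosure hmem
  exact StarAlgebra.elemental.le_of_mem hT hXT h

lemma norm_trunc_le (hl : 0 < l) (hX : IsSelfAdjoint X) : ‖trunc l X‖ ≤ l := by
  rw [trunc, norm_smul, Real.norm_eq_abs, abs_of_pos (by positivity)]
  refine (mul_le_mul_of_nonneg_left (norm_mul_resolv_le hl hX) (by positivity)).trans ?_
  rw [← div_eq_mul_inv, div_le_iff₀ (by positivity)]
  nlinarith

lemma isSelfAdjoint_trunc (hl : 0 < l) (hX : IsSelfAdjoint X) : IsSelfAdjoint (trunc l X) := by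
  rw [trunc, mul_resolv_eq hl hX]
  exact IsSelfAdjoint.smul (IsSelfAdjoint.all _) (cfc_predicate _ _)

lemma norm_trunc_sub_le (hl : 0 < l) (hX : IsSelfAdjoint X) :
    ‖trunc l X - X‖ ≤ ‖X‖ ^ 3 / l ^ 2 := by
  have hc : Continuous fun x : ℝ => x * (l ^ 2 + x ^ 2)⁻¹ :=
    continuous_id.mul (continuous_resolv_fun hl)
  have e : trunc l X - X = cfc (fun x : ℝ => l ^ 2 * (x * (l ^ 2 + x ^ 2)⁻¹) - x) X := by
    rw [trunc, mul_resolv_eq hl hX, ← cfc_smul _ _ X hc.continuousOn]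
    conv_lhs => arg 2; rw [← cfc_id' ℝ X]
    exact (cfc_sub (fun x : ℝ => l ^ 2 * (x * (l ^ 2 + x ^ 2)⁻¹)) (fun x : ℝ => x) X
      (hc.const_smul (l ^ 2)).continuousOn continuousOn_id).symm
  rw [e]
  refine norm_cfc_le (by positivity) fun x hx => ?_
  have hxn : |x| ≤ ‖X‖ := by
    rcases subsingleton_or_nontrivial (L →L[ℂ] L) with h | h
    · simp [spectrum.of_subsingleton] at hx
    · simpa using spectrum.norm_le_norm_of_mem hx
  have hp := resolv_pos_aux hl x
  rw [show l ^ 2 * (x * (l ^ 2 + x ^ 2)⁻¹) - x = -(x ^ 3) / (l ^ 2 + x ^ 2) by field_simp; ring,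
    Real.norm_eq_abs, abs_div, abs_neg, abs_pow, abs_of_pos hp]
  exact div_le_div₀ (by positivity) (pow_le_pow_left₀ (abs_nonneg _) hxn 3) (by positivity)
    (by nlinarith)

/-- Bounded approximants in the norm closure of the exact algebra. -/
lemma exists_trunc_approx (hX : IsSelfAdjoint X) (hmem : X ∈ S.carrierBB) (hl : 0 < l) {η : ℝ}
    (hη : 0 < η) :
    ∃ W ∈ S.alg.topologicalClosure, IsSelfAdjoint W ∧ ‖W‖ ≤ l ∧
      ∀ᶠ i in S.F, S.hs i (trunc l X - W) ≤ η := by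
  set C : ℝ := ‖X‖ / l + 1 with hC
  have hC0 : 0 < C := by positivity
  obtain ⟨Z, hZ, h⟩ := hmem (η / (2 * C)) (by positivity)
  set Y : L →L[ℂ] L := (2⁻¹ : ℂ) • (Z + star Z) with hYdef
  have hY : IsSelfAdjoint Y := by
    change star Y = Y
    simp [hYdef, add_comm]
  have hYmem : Y ∈ S.alg := SMulMemClass.smul_mem _ (add_mem hZ (star_mem hZ))
  have hXY : ∀ᶠ i in S.F, S.hs i (X - Y) ≤ η / (2 * C) := by
    filter_upwards [h] with i hi
    rw [hX.star_eq] at hi
    have e : X - Y = (2⁻¹ : ℂ) • ((X - Z) + (X - star Z)) := by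
      rw [hYdef]; module
    rw [e, hs_smul]
    have := hs_add_le (S := S) i (X - Z) (X - star Z)
    norm_num
    linarith [hi.1, hi.2]
  have hD : Y - X ∈ S.carrierBB := by
    have := bb_add (bb_alg hYmem) (bb_smul (-1) hmem)
    simpa [sub_eq_add_neg] using this
  have hDsa : star (Y - X) = Y - X := by rw [star_sub, hY.star_eq, hX.star_eq]
  have hr := resolv_mem hl hY hYmem (S := S)
  have hyr : Y * resolv l Y ∈ S.alg.topologicalClosure :=
    mul_mem (S.alg.le_topologicalClosure hYmem) hr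
  refine ⟨trunc l Y, ?_, isSelfAdjoint_trunc hl hY, norm_trunc_le hl hY, ?_⟩
  · rw [trunc, ← Complex.coe_smul]
    exact SMulMemClass.smul_mem _ hyr
  obtain ⟨θ, hθ, hθη⟩ : ∃ θ > 0, θ * (1 / (2 * l) + 1 / l ^ 2 + 1) * (‖X‖ * l ^ 2 + l ^ 2 + 1)
      ≤ η / 2 := by
    refine ⟨η / 2 / ((1 / (2 * l) + 1 / l ^ 2 + 1) * (‖X‖ * l ^ 2 + l ^ 2 + 1)), by positivity, ?_⟩
    rw [mul_assoc, div_mul_cancel₀ _ (by positivity)]
  filter_upwards [hXY, hs_mul_closure_le hD hr hθ, hs_mul_closure_le hD hyr hθ] with i hi h1 h2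
  rw [hDsa] at h1 h2
  rw [hs_sub_comm i Y X] at h1 h2
  set d := S.hs i (X - Y) with hd
  have hd0 : 0 ≤ d := hs_nonneg _ _
  have a1 : S.hs i ((Y - X) * resolv l Y) ≤ (l ^ 2)⁻¹ * d + θ :=
    h1.trans (by gcongr; exact norm_resolv_le hl)
  have a2 : S.hs i ((Y - X) * (Y * resolv l Y)) ≤ (2 * l)⁻¹ * d + θ :=
    h2.trans (by gcongr; exact norm_mul_resolv_le hl hY)
  have hxr : ‖resolv l X * X‖ ≤ (2 * l)⁻¹ := by
    rw [resolv_comm hl hX]; exact norm_mul_resolv_le hl hX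
  have b : S.hs i (resolv l X - resolv l Y) ≤
      (2 * l)⁻¹ * ((l ^ 2)⁻¹ * d + θ) + (l ^ 2)⁻¹ * ((2 * l)⁻¹ * d + θ) := by
    rw [resolv_sub hl hX hY]
    refine (hs_add_le _ _ _).trans (add_le_add ?_ ?_)
    · exact (hs_mul_le _ _ _).trans (mul_le_mul hxr a1 (hs_nonneg _ _) (by positivity))
    · exact (hs_mul_le _ _ _).trans
        (mul_le_mul (norm_resolv_le hl) a2 (hs_nonneg _ _) (by positivity))
  have e : trunc l X - trunc l Y =
      ((l ^ 2 : ℝ) : ℂ) • (X * (resolv l X - resolv l Y) - (Y - X) * resolv l Y) := by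
    rw [trunc, trunc, Complex.coe_smul, ← smul_sub]
    congr 1
    noncomm_ring
  rw [e, hs_smul, Complex.norm_real, Real.norm_eq_abs, abs_of_pos (by positivity)]
  have c : S.hs i (X * (resolv l X - resolv l Y) - (Y - X) * resolv l Y) ≤
      ‖X‖ * ((2 * l)⁻¹ * ((l ^ 2)⁻¹ * d + θ) + (l ^ 2)⁻¹ * ((2 * l)⁻¹ * d + θ)) +
        ((l ^ 2)⁻¹ * d + θ) := by
    have := hs_add_le (S := S) i (X * (resolv l X - resolv l Y) - (Y - X) * resolv l Y)
      ((Y - X) * resolv l Y)
    have h4 : S.hs i (X * (resolv l X - resolv l Y) - (Y - X) * resolv l Y) ≤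
        S.hs i (X * (resolv l X - resolv l Y)) + S.hs i ((Y - X) * resolv l Y) := by
      simp only [hs, hsNorm, map_sub]
      exact norm_sub_le _ _
    have h5 := (hs_mul_le (S := S) i X (resolv l X - resolv l Y)).trans
      (mul_le_mul_of_nonneg_left b (norm_nonneg _))
    linarith
  refine (mul_le_mul_of_nonneg_left c (by positivity)).trans ?_
  have e2 : l ^ 2 * (‖X‖ * ((2 * l)⁻¹ * ((l ^ 2)⁻¹ * d + θ) + (l ^ 2)⁻¹ * ((2 * l)⁻¹ * d + θ)) +
      ((l ^ 2)⁻¹ * d + θ)) = C * d + θ * (‖X‖ * l ^ 2 * (1 / (2 * l) + 1 / l ^ 2) + l ^ 2) := by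
    rw [hC]; field_simp; ring
  rw [e2]
  have e3 : C * d ≤ η / 2 := by
    have := mul_le_mul_of_nonneg_left hi hC0.le
    rwa [show C * (η / (2 * C)) = η / 2 by field_simp] at this
  have e4 : θ * (‖X‖ * l ^ 2 * (1 / (2 * l) + 1 / l ^ 2) + l ^ 2) ≤ η / 2 := by
    refine le_trans ?_ hθη
    rw [mul_assoc θ]
    refine mul_le_mul_of_nonneg_left ?_ hθ.le
    have : 0 ≤ 1 / (2 * l) + 1 / l ^ 2 := by positivity
    nlinarith [norm_nonneg X, sq_nonneg l]
  linarith

/-- Multiplying by a truncation keeps the carrier. -/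
lemma bb_mul_trunc {Y : L →L[ℂ] L} (hXm : X ∈ S.carrierBB) (hY : IsSelfAdjoint Y)
    (hYm : Y ∈ S.carrierBB) (hl : 0 < l) : X * trunc l Y ∈ S.carrierBB := by
  refine bb_of_approx fun η hη => ?_
  obtain ⟨X', hX', hx⟩ := hXm (η / (3 * (l + 1))) (by positivity)
  obtain ⟨K, hK⟩ := S.right (star X') (star_mem hX')
  obtain ⟨W, hW, hWsa, hWn, hw⟩ := exists_trunc_approx (S := S) hY hYm hl
    (η := η / (3 * (|K| + ‖X‖ + 1))) (by positivity)
  refine ⟨X' * W, bb_mul_closure (bb_alg hX') hW, ?_⟩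
  have hD : X - X' ∈ S.carrierBB := by
    have := bb_add hXm (bb_smul (-1) (bb_alg hX'))
    simpa [sub_eq_add_neg] using this
  have hK' := hK (trunc l Y - W) _ (by positivity) hw (η / 3) (by
    rw [gt_iff_lt, ← mul_div_assoc, div_lt_div_iff₀ (by positivity) (by positivity)]
    nlinarith [mul_le_mul_of_nonneg_right (le_abs_self K) hη.le, norm_nonneg X])
  filter_upwards [hx, hw, hK', hs_mul_closure_le hD hW (show 0 < η / 3 by positivity)]
    with i hi hwi hki h1
  have hsmall : (l + 1) * (η / (3 * (l + 1))) = η / 3 := by field_simp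
  have hsmall2 : ‖X‖ * (η / (3 * (|K| + ‖X‖ + 1))) ≤ η / 3 := by
    rw [← mul_div_assoc, div_le_div_iff₀ (by positivity) (by positivity)]
    nlinarith [abs_nonneg K, norm_nonneg X]
  have hd : ‖W‖ * S.hs i (star (X - X')) ≤ η / 3 := by
    rw [star_sub, ← hsmall]
    exact mul_le_mul (by linarith) hi.2 (hs_nonneg _ _) (by positivity)
  constructor
  · rw [show X * trunc l Y - X' * W = X * (trunc l Y - W) + (X - X') * W by noncomm_ring]
    refine (hs_add_le _ _ _).trans ?_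
    have := (hs_mul_le (S := S) i X (trunc l Y - W)).trans
      (mul_le_mul_of_nonneg_left hwi (norm_nonneg X))
    linarith
  · rw [star_mul, star_mul, (isSelfAdjoint_trunc hl hY).star_eq, hWsa.star_eq,
      show trunc l Y * star X - W * star X' =
        trunc l Y * (star X - star X') + (trunc l Y - W) * star X' by noncomm_ring]
    refine (hs_add_le _ _ _).trans ?_
    have := (hs_mul_le (S := S) i (trunc l Y) (star X - star X')).trans
      (mul_le_mul ((norm_trunc_le hl hY).trans (by linarith : l ≤ l + 1)) hi.2 (hs_nonneg _ _)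
        (by positivity))
    linarith

lemma bb_mul_sa {Y : L →L[ℂ] L} (hXm : X ∈ S.carrierBB) (hY : IsSelfAdjoint Y)
    (hYm : Y ∈ S.carrierBB) : X * Y ∈ S.carrierBB := by
  refine isClosed_bb.mem_of_tendsto (f := fun n : ℕ => X * trunc (n + 1 : ℝ) Y) (b := atTop) ?_
    (Eventually.of_forall fun n => bb_mul_trunc hXm hY hYm (by positivity))
  refine Tendsto.const_mul X (tendsto_iff_norm_sub_tendsto_zero.2 ?_)
  refine squeeze_zero (fun n => norm_nonneg _)
    (fun n => norm_trunc_sub_le (l := (n : ℝ) + 1) (by positivity) hY) ?_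
  refine Tendsto.div_atTop tendsto_const_nhds ?_
  exact (tendsto_pow_atTop two_ne_zero).comp
    (tendsto_natCast_atTop_atTop.atTop_add tendsto_const_nhds)

lemma bb_mul {Y : L →L[ℂ] L} (hXm : X ∈ S.carrierBB) (hYm : Y ∈ S.carrierBB) :
    X * Y ∈ S.carrierBB := by
  have hP : IsSelfAdjoint (Y + star Y) := IsSelfAdjoint.add_star_self Y
  have hQ : IsSelfAdjoint (Complex.I • (Y - star Y)) := by
    rw [IsSelfAdjoint, star_smul, star_sub, star_star, Complex.star_def, Complex.conj_I, neg_smul,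
      ← smul_neg, neg_sub]
  have hPm : Y + star Y ∈ S.carrierBB := bb_add hYm (bb_star hYm)
  have hQm : Complex.I • (Y - star Y) ∈ S.carrierBB := by
    refine bb_smul _ ?_
    have := bb_add hYm (bb_smul (-1) (bb_star hYm))
    rwa [neg_one_smul, ← sub_eq_add_neg] at this
  have e : X * Y = (2⁻¹ : ℂ) •
      (X * (Y + star Y) + (-Complex.I) • (X * (Complex.I • (Y - star Y)))) := by
    rw [mul_smul_comm, smul_smul, neg_mul, Complex.I_mul_I, neg_neg, one_smul, ← mul_add,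
      show Y + star Y + (Y - star Y) = (2 : ℂ) • Y by rw [two_smul]; abel, mul_smul_comm,
      smul_smul, inv_mul_cancel₀ (two_ne_zero' ℂ), one_smul]
  rw [e]
  exact bb_smul _ (bb_add (bb_mul_sa hXm hP hPm) (bb_smul _ (bb_mul_sa hXm hQ hQm)))

variable (S)

/-- The norm closed `*`-algebra carrying the asymptotic trace. -/
def BB : StarSubalgebra ℂ (L →L[ℂ] L) where
  carrier := S.carrierBB
  mul_mem' := bb_mul
  add_mem' := bb_add
  algebraMap_mem' r := bb_alg (algebraMap_mem S.alg r)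
  star_mem' := bb_star

/-- The asymptotic trace. -/
def tr (X : L →L[ℂ] L) : ℂ := limUnder S.F fun i => S.ct i X

variable {S}

lemma mem_BB {X : L →L[ℂ] L} : X ∈ S.BB ↔ X ∈ S.carrierBB := Iff.rfl

lemma isClosed_BB : IsClosed (S.BB : Set (L →L[ℂ] L)) := isClosed_bb

lemma alg_le_BB : S.alg ≤ S.BB := fun _ h => bb_alg h

lemma ct_sub_le (i : ι) (A B : L →L[ℂ] L) :
    ‖S.ct i A - S.ct i B‖ ≤ S.hs i 1 * S.hs i (A - B) := by
  have := norm_ct_mul_le (S := S) i 1 (A - B)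
  rwa [one_mul, star_one, ct_sub] at this

lemma exists_tendsto_ct (hX : X ∈ S.BB) : ∃ t, Tendsto (fun i => S.ct i X) S.F (𝓝 t) := by
  refine cauchy_map_iff_exists_tendsto.1 ?_
  rw [Metric.cauchy_iff]
  refine ⟨inferInstance, fun ε hε => ?_⟩
  obtain ⟨X', hX', h⟩ := hX (ε / (4 * (Real.sqrt S.mass + 1))) (by positivity)
  obtain ⟨t, ht⟩ := S.exists_tr X' hX'
  refine ⟨_, Filter.image_mem_map ((h.and hs_one_le).and
    (Metric.tendsto_nhds.1 ht (ε / 4) (by positivity))), ?_⟩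
  have key : ∀ i, ((S.hs i (X - X') ≤ ε / (4 * (Real.sqrt S.mass + 1)) ∧
      S.hs i (star X - star X') ≤ ε / (4 * (Real.sqrt S.mass + 1))) ∧
      S.hs i 1 ≤ Real.sqrt S.mass) → dist (S.ct i X') t < ε / 4 →
      dist (S.ct i X) t < ε / 2 := by
    intro i hi ht'
    have h1 := (ct_sub_le (S := S) i X X').trans
      (mul_le_mul hi.2 hi.1.1 (hs_nonneg _ _) (Real.sqrt_nonneg _))
    have h2 : Real.sqrt S.mass * (ε / (4 * (Real.sqrt S.mass + 1))) ≤ ε / 4 := by
      rw [← mul_div_assoc, div_le_div_iff₀ (by positivity) (by positivity)]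
      nlinarith [Real.sqrt_nonneg S.mass]
    have h3 := dist_triangle (S.ct i X) (S.ct i X') t
    rw [← dist_eq_norm] at h1
    linarith
  rintro _ ⟨i, hi, rfl⟩ _ ⟨j, hj, rfl⟩
  have h1 := key i hi.1 hi.2
  have h2 := key j hj.1 hj.2
  have h3 := dist_triangle_right (S.ct i X) (S.ct j X) t
  linarith

lemma tendsto_ct (hX : X ∈ S.BB) : Tendsto (fun i => S.ct i X) S.F (𝓝 (S.tr X)) :=
  tendsto_nhds_limUnder (exists_tendsto_ct hX)

lemma tr_eq_of_tendsto {t : ℂ} (h : Tendsto (fun i => S.ct i X) S.F (𝓝 t)) : S.tr X = t :=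
  h.limUnder_eq

lemma tr_add {Y : L →L[ℂ] L} (hX : X ∈ S.BB) (hY : Y ∈ S.BB) :
    S.tr (X + Y) = S.tr X + S.tr Y := by
  refine tr_eq_of_tendsto ?_
  simpa [ct_add] using (tendsto_ct hX).add (tendsto_ct hY)

lemma tr_sub {Y : L →L[ℂ] L} (hX : X ∈ S.BB) (hY : Y ∈ S.BB) :
    S.tr (X - Y) = S.tr X - S.tr Y := by
  refine tr_eq_of_tendsto ?_
  simpa [ct_sub] using (tendsto_ct hX).sub (tendsto_ct hY)

lemma tr_smul (a : ℂ) (hX : X ∈ S.BB) : S.tr (a • X) = a * S.tr X := by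
  refine tr_eq_of_tendsto ?_
  simpa [ct_smul] using (tendsto_ct hX).const_mul a

lemma tr_star (hX : X ∈ S.BB) : S.tr (star X) = conj (S.tr X) := by
  refine tr_eq_of_tendsto (((Complex.continuous_conj.tendsto _).comp (tendsto_ct hX)).congr ?_)
  intro i
  simp [ct, cellTr, ContinuousLinearMap.star_eq_adjoint,
    ContinuousLinearMap.adjoint_inner_right, inner_conj_symm]

lemma tr_nonneg (hX : X ∈ S.BB) :
    0 ≤ (S.tr (star X * X)).re ∧ (S.tr (star X * X)).im = 0 := by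
  have h := tendsto_ct (mul_mem (star_mem hX) hX)
  constructor
  · refine ge_of_tendsto ((Complex.continuous_re.tendsto _).comp h)
      (Eventually.of_forall fun i => ?_)
    simp only [Function.comp, ct_star_mul_self, Complex.ofReal_re]
    positivity
  · refine tendsto_nhds_unique ((Complex.continuous_im.tendsto _).comp h) ?_
    refine tendsto_const_nhds.congr fun i => ?_
    simp only [Function.comp, ct_star_mul_self, Complex.ofReal_im]

/-- The asymptotic trace is cyclic. -/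
lemma tr_mul_comm {Y : L →L[ℂ] L} (hX : X ∈ S.BB) (hY : Y ∈ S.BB) :
    S.tr (X * Y) = S.tr (Y * X) := by
  suffices H : Tendsto (fun i => S.ct i (X * Y) - S.ct i (Y * X)) S.F (𝓝 0) by
    have := tendsto_nhds_unique
      ((tendsto_ct (mul_mem hX hY)).sub (tendsto_ct (mul_mem hY hX))) H
    exact sub_eq_zero.1 this
  rw [Metric.tendsto_nhds]
  intro ε hε
  set B : ℝ := (‖X‖ + ‖Y‖) * Real.sqrt S.mass + 1 with hB
  have hB0 : 0 < B := by positivity
  set η : ℝ := min 1 (ε / (8 * (B + 1))) with hηdef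
  have hη : 0 < η := lt_min one_pos (by positivity)
  obtain ⟨X', hX', hx⟩ := hX η hη
  obtain ⟨Y', hY', hy⟩ := hY η hη
  filter_upwards [hx, hy, hs_le_norm (S := S) X, hs_le_norm (S := S) (star X),
    hs_le_norm (S := S) Y, hs_le_norm (S := S) (star Y),
    Metric.tendsto_nhds.1 (S.tr_comm X' hX' Y' hY') (ε / 4) (by positivity)]
    with i hx hy nx nxs ny nys h0
  rw [norm_star] at nxs nys
  have hXs : ∀ {U U' : L →L[ℂ] L}, S.hs i (U - U') ≤ η → S.hs i U ≤ B - 1 → S.hs i U' ≤ B := by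
    intro U U' h1 h2
    have := hs_le_sub (S := S) i U' U
    rw [hs_sub_comm] at this
    linarith [min_le_left 1 (ε / (8 * (B + 1)))]
  have bb : ‖X‖ * Real.sqrt S.mass ≤ B - 1 ∧ ‖Y‖ * Real.sqrt S.mass ≤ B - 1 := by
    constructor <;> rw [hB] <;> nlinarith [norm_nonneg X, norm_nonneg Y, Real.sqrt_nonneg S.mass]
  have key : ∀ U U' V V' : L →L[ℂ] L, S.hs i (star U - star U') ≤ η → S.hs i (V - V') ≤ η →
      S.hs i V ≤ B → S.hs i (star U') ≤ B → ‖S.ct i (U * V) - S.ct i (U' * V')‖ ≤ 2 * B * η := by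
    intro U U' V V' h1 h2 h3 h4
    rw [← ct_sub, show U * V - U' * V' = (U - U') * V + U' * (V - V') by noncomm_ring, ct_add]
    refine (norm_add_le _ _).trans ?_
    have a := norm_ct_mul_le (S := S) i (U - U') V
    have b := norm_ct_mul_le (S := S) i U' (V - V')
    rw [star_sub] at a
    nlinarith [mul_le_mul h1 h3 (hs_nonneg (S := S) i V) hη.le,
      mul_le_mul h4 h2 (hs_nonneg (S := S) i (V - V')) hB0.le]
  have k1 := key X X' Y Y' hx.2 hy.1 (ny.trans (by linarith [bb.2]))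
    (hXs hx.2 (nxs.trans bb.1))
  have k2 := key Y Y' X X' hy.2 hx.1 (nx.trans (by linarith [bb.1]))
    (hXs hy.2 (nys.trans bb.2))
  have k3 : 2 * B * η ≤ ε / 4 := by
    have : η ≤ ε / (8 * (B + 1)) := min_le_right _ _
    rw [le_div_iff₀ (by positivity)] at this
    nlinarith
  rw [dist_zero_right] at h0 ⊢
  change ‖S.ct i (X' * Y') - S.ct i (Y' * X')‖ < _ at h0
  calc ‖S.ct i (X * Y) - S.ct i (Y * X)‖
      = ‖(S.ct i (X * Y) - S.ct i (X' * Y')) + (S.ct i (X' * Y') - S.ct i (Y' * X')) -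
          (S.ct i (Y * X) - S.ct i (Y' * X'))‖ := by congr 1; ring
    _ ≤ _ := (norm_sub_le _ _).trans (add_le_add_left (norm_add_le _ _) _)
    _ < ε := by linarith

/-- The trace is bounded by the seminorm. -/
lemma norm_tr_le (hX : X ∈ S.BB) {η : ℝ} (h : ∀ᶠ i in S.F, S.hs i X ≤ η) :
    ‖S.tr X‖ ≤ Real.sqrt S.mass * η := by
  refine le_of_tendsto (tendsto_ct hX).norm ?_
  filter_upwards [h, hs_one_le] with i hi h1
  have := norm_ct_mul_le (S := S) i 1 X
  rw [one_mul, star_one] at this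
  exact this.trans (mul_le_mul h1 hi (hs_nonneg _ _) (Real.sqrt_nonneg _))

end TraceSys

end Vale.Agent.P078
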