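import Vale.Agent.P078.MasaDefs

/-!
Projections in a maximal abelian selfadjoint algebra of operators, and fine partitions.
-/

noncomputable section

open scoped InnerProductSpace

namespace Vale.Agent.P078

variable {H : Type*} [NormedAddCommGroup H] [InnerProductSpace ℂ H] [CompleteSpace H]

variable {A : StarSubalgebra ℂ (H →L[ℂ] H)}

theorem comm_of_mem (hA : IsMaxAbelian A) {S T : H →L[ℂ] H} (hS : S ∈ A) (hT : T ∈ A) :
    S * T = T * S :=
  (hA S).1 hS T hT

theorem inner_proj {p : H →L[ℂ] H} (hp : IsStarProjection p) (u v : H) :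
    ⟪p u, v⟫_ℂ = ⟪u, p v⟫_ℂ := by
  conv_rhs => rw [← ContinuousLinearMap.adjoint_inner_left]
  rw [← ContinuousLinearMap.star_eq_adjoint, hp.isSelfAdjoint.star_eq]

theorem proj_apply_apply {p : H →L[ℂ] H} (hp : IsStarProjection p) (u : H) : p (p u) = p u :=
  congrArg (fun T : H →L[ℂ] H => T u) hp.isIdempotentElem

theorem sq_norm_proj {p : H →L[ℂ] H} (hp : IsStarProjection p) (v : H) :
    ‖p v‖ ^ 2 = (⟪v, p v⟫_ℂ).re := by
  have h := inner_self_eq_norm_sq (𝕜 := ℂ) (p v)
  rw [inner_proj hp, proj_apply_apply hp] at h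
  exact h.symm

theorem norm_proj_le {p : H →L[ℂ] H} (hp : IsStarProjection p) (v : H) : ‖p v‖ ≤ ‖v‖ := by
  have h1 := sq_norm_proj hp v
  have h2 := (Complex.re_le_norm ⟪v, p v⟫_ℂ).trans (norm_inner_le_norm v (p v))
  nlinarith [norm_nonneg (p v), norm_nonneg v]

/-- The projection onto a closed invariant subspace belongs to `A`. -/
theorem proj_mem (hA : IsMaxAbelian A) (K : Submodule ℂ H) [K.HasOrthogonalProjection]
    (hK : ∀ b ∈ A, ∀ v ∈ K, b v ∈ K) : K.starProjection ∈ A := by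
  refine (hA _).2 fun b hb => ?_
  ext v
  change K.starProjection (b v) = b (K.starProjection v)
  refine Submodule.eq_starProjection_of_mem_orthogonal (hK b hb _ (K.starProjection_apply_mem v)) ?_
  rw [Submodule.mem_orthogonal']
  intro w hw
  rw [← map_sub, ← ContinuousLinearMap.adjoint_inner_right, ← ContinuousLinearMap.star_eq_adjoint]
  exact Submodule.starProjection_inner_eq_zero v _ (hK _ (star_mem hb) w hw)

/-- A projection of `A` obtained from a family of vectors stable under `A`. -/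
theorem exists_proj_closure (hA : IsMaxAbelian A) (K : Submodule ℂ H)
    (hK : ∀ b ∈ A, ∀ v ∈ K, b v ∈ K) :
    ∃ s ∈ A, IsStarProjection s ∧ (∀ v ∈ K, s v = v) ∧
      ∀ T : H →L[ℂ] H, (∀ v ∈ K, T v = 0) → T * s = 0 := by
  have : CompleteSpace K.topologicalClosure :=
    K.isClosed_topologicalClosure.completeSpace_coe
  refine ⟨K.topologicalClosure.starProjection, proj_mem hA _ ?_, isStarProjection_starProjection,
    fun v hv => ?_, fun T hT => ?_⟩
  · intro b hb v hv
    exact map_mem_closure b.continuous hv fun w hw => hK b hb w hw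
  · exact Submodule.starProjection_eq_self_iff.2 (K.le_topologicalClosure hv)
  · ext v
    change T (K.topologicalClosure.starProjection v) = 0
    have hsub : K.topologicalClosure ≤ LinearMap.ker (T : H →ₗ[ℂ] H) :=
      K.topologicalClosure_minimal (fun w hw => hT w hw) T.isClosed_ker
    exact hsub (K.topologicalClosure.starProjection_apply_mem v)

theorem mul_mem_proj (hA : IsMaxAbelian A) {p q : H →L[ℂ] H} (hp : p ∈ A) (hq : q ∈ A)
    (h1 : IsStarProjection p) (h2 : IsStarProjection q) : IsStarProjection (p * q) :=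
  h1.mul h2 (comm_of_mem hA hp hq)

/-- Halving: below a projection seeing `ξ` there is one seeing at most half of its weight. -/
theorem exists_half (hA : IsMaxAbelian A) (hD : IsDiffuse A) {ξ : H} {p : H →L[ℂ] H}
    (hp : p ∈ A) (hpp : IsStarProjection p) (hξ : p ξ ≠ 0) :
    ∃ q ∈ A, IsStarProjection q ∧ p * q = q ∧ q ξ ≠ 0 ∧ ‖q ξ‖ ^ 2 ≤ ‖p ξ‖ ^ 2 / 2 := by
  obtain ⟨s, hs, hsp, hfix, hker⟩ := exists_proj_closure hA
    (A.toSubalgebra.toSubmodule.map ((ContinuousLinearMap.apply ℂ H (p ξ)) :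
      (H →L[ℂ] H) →ₗ[ℂ] H)) (by
      rintro b hb v hv
      obtain ⟨c, hc, rfl⟩ := Submodule.mem_map.1 hv
      exact Submodule.mem_map.2 ⟨b * c, A.mul_mem' hb (show c ∈ A from hc), rfl⟩)
  have hsξ : s (p ξ) = p ξ := hfix _ (Submodule.mem_map.2 ⟨1, one_mem A, rfl⟩)
  have hps : p * s = s := by
    have h := hker (p - 1) fun v hv => by
      obtain ⟨c, hc, rfl⟩ := Submodule.mem_map.1 hv
      change p (c (p ξ)) - c (p ξ) = 0
      rw [sub_eq_zero]
      change (p * c) (p ξ) = _
      rw [comm_of_mem hA hp hc]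
      change c (p (p ξ)) = _
      rw [proj_apply_apply hpp]
    rw [sub_mul, one_mul, sub_eq_zero] at h
    exact h
  have hs0 : s ≠ 0 := fun h => hξ (by rw [← hsξ, h]; rfl)
  obtain ⟨q, hq, hqp, hq0, hqs, hsq⟩ := hD s hs hsp hs0
  have key : ∀ q' ∈ A, s * q' = q' → q' ≠ 0 → q' ξ ≠ 0 := by
    intro q' hq' hsq' hne hzero
    refine hne ?_
    have h := hker q' fun v hv => by
      obtain ⟨c, hc, rfl⟩ := Submodule.mem_map.1 hv
      change (q' * c * p) ξ = 0
      rw [comm_of_mem hA (mul_mem hq' hc) hp, comm_of_mem hA hq' hc]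
      change p (c (q' ξ)) = 0
      simp [hzero]
    rwa [comm_of_mem hA hq' hs, hsq'] at h
  have hq' : IsStarProjection (s - q) := hqp.sub_of_mul_eq_right hsp hsq
  have e : ∀ q', s * q' = q' → p * q' = q' := fun q' h => by rw [← h, ← mul_assoc, hps]
  have h2 : s * (s - q) = s - q := by rw [mul_sub, hsp.isIdempotentElem, hsq]
  have hsum : ‖q ξ‖ ^ 2 + ‖(s - q) ξ‖ ^ 2 ≤ ‖p ξ‖ ^ 2 := by
    rw [sq_norm_proj hqp, sq_norm_proj hq', ← Complex.add_re, ← inner_add_right]
    have e1 : q ξ + (s - q) ξ = s ξ := by simp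
    have e2 : s ξ = s (p ξ) := by
      change s ξ = (s * p) ξ
      rw [comm_of_mem hA hs hp, hps]
    rw [e1, ← sq_norm_proj hsp, e2]
    exact pow_le_pow_left₀ (norm_nonneg _) (norm_proj_le hsp _) 2
  by_cases hle : ‖q ξ‖ ^ 2 ≤ ‖p ξ‖ ^ 2 / 2
  · exact ⟨q, hq, hqp, e q hsq, key q hq hsq hq0, hle⟩
  · exact ⟨s - q, sub_mem hs hq, hq', e _ h2,
      key _ (sub_mem hs hq) h2 (sub_ne_zero.2 (Ne.symm hqs)), by linarith⟩

theorem exists_small (hA : IsMaxAbelian A) (hD : IsDiffuse A) {ξ : H} {η : ℝ} (hη : 0 < η)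
    {p : H →L[ℂ] H} (hp : p ∈ A) (hpp : IsStarProjection p) (hξ : p ξ ≠ 0) :
    ∃ q ∈ A, IsStarProjection q ∧ p * q = q ∧ q ξ ≠ 0 ∧ ‖q ξ‖ ^ 2 ≤ η := by
  have h : ∀ n : ℕ, ∃ q ∈ A, IsStarProjection q ∧ p * q = q ∧ q ξ ≠ 0 ∧
      ‖q ξ‖ ^ 2 ≤ (1 / 2) ^ n * ‖p ξ‖ ^ 2 := by
    intro n
    induction n with
    | zero => exact ⟨p, hp, hpp, hpp.isIdempotentElem, hξ, by simp⟩
    | succ n ih =>
      obtain ⟨q, hq, hqp, hpq, hne, hle⟩ := ih
      obtain ⟨q', hq', hq'p, hqq', hne', hle'⟩ := exists_half hA hD hq hqp hne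
      refine ⟨q', hq', hq'p, by rw [← hqq', ← mul_assoc, hpq], hne', ?_⟩
      have e : ((1 : ℝ) / 2) ^ (n + 1) = (1 / 2) ^ n * (1 / 2) := pow_succ _ n
      rw [e]; linarith
  obtain ⟨n, hn⟩ := exists_pow_lt_of_lt_one
    (div_pos hη (pow_pos (norm_pos_iff.2 hξ) 2)) (by norm_num : (1 / 2 : ℝ) < 1)
  obtain ⟨q, h1, h2, h3, h4, h5⟩ := h n
  rw [lt_div_iff₀ (pow_pos (norm_pos_iff.2 hξ) 2)] at hn
  exact ⟨q, h1, h2, h3, h4, h5.trans hn.le⟩

/-- A list of projections of `A`. -/
def InA (A : StarSubalgebra ℂ (H →L[ℂ] H)) (L : List (H →L[ℂ] H)) : Prop :=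
  ∀ p ∈ L, p ∈ A ∧ IsStarProjection p

/-- `c` lies below each member of `L` or below its complement. -/
def Refines (c : H →L[ℂ] H) (L : List (H →L[ℂ] H)) : Prop :=
  ∀ p ∈ L, p * c = c ∨ p * c = 0

/-- Finitely many projections cut `ξ` into small pieces. -/
theorem exists_fine (hA : IsMaxAbelian A) (hD : IsDiffuse A) (ξ : H) {η : ℝ} (hη : 0 < η) :
    ∃ L, InA A L ∧ ∀ c ∈ A, IsStarProjection c → Refines c L → ‖c ξ‖ ^ 2 ≤ η := by
  classical
  let P := {p : H →L[ℂ] H // p ∈ A ∧ IsStarProjection p}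
  let S : P → Set ℝ := fun p =>
    {t | ∃ q : P, p.1 * q.1 = q.1 ∧ ‖q.1 ξ‖ ^ 2 ≤ η ∧ t = ‖q.1 ξ‖ ^ 2}
  have hSb : ∀ p, BddAbove (S p) := fun p => ⟨η, by rintro t ⟨q, -, h, rfl⟩; exact h⟩
  have hpick : ∀ p : P, ∃ q : P, p.1 * q.1 = q.1 ∧ ‖q.1 ξ‖ ^ 2 ≤ η ∧
      sSup (S p) / 2 ≤ ‖q.1 ξ‖ ^ 2 := by
    intro p
    have hne : (0 : ℝ) ∈ S p := ⟨⟨0, zero_mem A, IsStarProjection.zero _⟩, by simp, by simpa using hη.le, by simp⟩
    rcases (le_csSup (hSb p) hne).eq_or_lt with h | h
    · exact ⟨⟨0, zero_mem A, IsStarProjection.zero _⟩, by simp, by simpa using hη.le, by simp [← h]⟩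
    · obtain ⟨t, ⟨q, h1, h2, rfl⟩, ht⟩ := exists_lt_of_lt_csSup ⟨0, hne⟩ (half_lt_self h)
      exact ⟨q, h1, h2, ht.le⟩
  choose Q hQ1 hQ2 hQ3 using hpick
  let next : P → P := fun p => ⟨p.1 - (Q p).1, sub_mem p.2.1 (Q p).2.1,
    (Q p).2.2.sub_of_mul_eq_right p.2.2 (hQ1 p)⟩
  let pk : ℕ → P := fun n => next^[n] ⟨1, one_mem A, IsStarProjection.one _⟩
  have hsucc : ∀ n, pk (n + 1) = next (pk n) := fun n => Function.iterate_succ_apply' _ _ _
  by_cases hend : ∃ n, ‖(pk n).1 ξ‖ ^ 2 ≤ η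
  · obtain ⟨n, hn⟩ := hend
    refine ⟨(List.range n).map fun k => (Q (pk k)).1, fun p hp => ?_, fun c hc hcp hr => ?_⟩
    · obtain ⟨k, -, rfl⟩ := List.mem_map.1 hp
      exact (Q (pk k)).2
    · have small : ∀ q : P, q.1 * c = c → ‖q.1 ξ‖ ^ 2 ≤ η → ‖c ξ‖ ^ 2 ≤ η := by
        intro q hq hle
        refine le_trans (pow_le_pow_left₀ (norm_nonneg _) ?_ 2) hle
        rw [← hq, comm_of_mem hA q.2.1 hc]
        exact norm_proj_le hcp _
      by_cases hex : ∃ k < n, (Q (pk k)).1 * c = c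
      · obtain ⟨k, -, hk⟩ := hex
        exact small _ hk (hQ2 _)
      · push Not at hex
        have hall : ∀ m ≤ n, (pk m).1 * c = c := by
          intro m
          induction m with
          | zero => intro _; simp [pk]
          | succ m ih =>
            intro hm
            have h0 := (hr _ (List.mem_map.2 ⟨m, List.mem_range.2 hm, rfl⟩)).resolve_left (hex m hm)
            rw [hsucc]
            simp [next, sub_mul, h0, ih (by omega)]
        exact small _ (hall n le_rfl) hn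
  · exfalso
    push Not at hend
    set w : ℕ → ℝ := fun n => ‖(pk n).1 ξ‖ ^ 2 with hw
    have hwstep : ∀ n, w (n + 1) = w n - ‖(Q (pk n)).1 ξ‖ ^ 2 := by
      intro n
      simp only [hw, sq_norm_proj (pk _).2.2, sq_norm_proj (Q _).2.2]
      rw [hsucc]
      simp [next, inner_sub_right]
    have hanti : Antitone w := antitone_nat_of_succ_le fun n => by
      rw [hwstep]; linarith [sq_nonneg ‖(Q (pk n)).1 ξ‖]
    have hmul : ∀ {m n}, m ≤ n → (pk m).1 * (pk n).1 = (pk n).1 := by
      intro m n hmn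
      induction hmn with
      | refl => exact (pk m).2.2.isIdempotentElem
      | @step k _ ih =>
        have e : (pk (k + 1)).1 = (pk k).1 * (pk (k + 1)).1 := by
          rw [hsucc]; simp [next, mul_sub, hQ1, (pk k).2.2.isIdempotentElem.eq]
        rw [Nat.succ_eq_add_one, e, ← mul_assoc, ih]
    have hbdd : BddBelow (Set.range w) := ⟨0, by rintro t ⟨n, rfl⟩; exact sq_nonneg _⟩
    have hlim := tendsto_atTop_ciInf hanti hbdd
    set L := ⨅ n, w n
    have hdist : ∀ {m n}, m ≤ n → ‖(pk m).1 ξ - (pk n).1 ξ‖ ^ 2 = w m - w n := by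
      intro m n hmn
      have hp := (pk n).2.2.sub_of_mul_eq_right (pk m).2.2 (hmul hmn)
      simp only [hw, sq_norm_proj (pk _).2.2]
      rw [← sub_apply, sq_norm_proj hp]
      simp [inner_sub_right]
    have hcau : CauchySeq fun n => (pk n).1 ξ := by
      refine cauchySeq_of_le_tendsto_0' (fun n => Real.sqrt (w n - L)) (fun m n hmn => ?_) ?_
      · rw [dist_eq_norm, ← Real.sqrt_sq (norm_nonneg _)]
        refine Real.sqrt_le_sqrt ?_
        rw [hdist hmn]
        linarith [ciInf_le hbdd n]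
      · simpa using (hlim.sub_const L).sqrt
    obtain ⟨z, hz⟩ := cauchySeq_tendsto_of_complete hcau
    let K : Submodule ℂ H := ⨅ n, LinearMap.ker (((pk n).1 - 1 : H →L[ℂ] H) : H →ₗ[ℂ] H)
    have memK : ∀ v, v ∈ K ↔ ∀ n, (pk n).1 v = v := fun v => by
      simp [K, Submodule.mem_iInf, sub_eq_zero]
    obtain ⟨s, hs, hsp, hfix, hker⟩ := exists_proj_closure hA K (by
      intro b hb v hv
      rw [memK] at hv ⊢
      intro n
      change ((pk n).1 * b) v = _
      rw [comm_of_mem hA (pk n).2.1 hb]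
      change b ((pk n).1 v) = _
      rw [hv n])
    have hks : ∀ n, (pk n).1 * s = s := by
      intro n
      have h := hker ((pk n).1 - 1) fun v hv => by simp [(memK v).1 hv n]
      rwa [sub_mul, one_mul, sub_eq_zero] at h
    have hzK : z ∈ K := (memK z).2 fun n => by
      refine tendsto_nhds_unique (((pk n).1.continuous.tendsto z).comp hz)
        (hz.congr' ((Filter.eventually_ge_atTop n).mono fun m hm => ?_))
      exact (congrArg (fun T : H →L[ℂ] H => T ξ) (hmul hm)).symm
    have hsξ : s ξ ≠ 0 := by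
      intro h0
      have h1 : ⟪ξ, z⟫_ℂ = 0 := by rw [← hfix z hzK, ← inner_proj hsp, h0, inner_zero_left]
      have h2 := (Complex.continuous_re.tendsto _).comp ((tendsto_const_nhds (x := ξ)).inner hz
        (𝕜 := ℂ))
      rw [h1] at h2
      have h3 : η ≤ (0 : ℂ).re := ge_of_tendsto h2 (Filter.Eventually.of_forall fun n => by
        simp only [Function.comp_apply, ← sq_norm_proj (pk n).2.2]
        exact (hend n).le)
      simp at h3
      linarith
    obtain ⟨q, hq, hqp, hsq, hne, hle⟩ := exists_small hA hD hη hs hsp hsξ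
    have hc : ∀ n, ‖q ξ‖ ^ 2 / 2 ≤ w n - w (n + 1) := by
      intro n
      rw [hwstep, sub_sub_cancel]
      refine le_trans ?_ (hQ3 _)
      gcongr
      exact le_csSup (hSb _) ⟨⟨q, hq, hqp⟩, by
        change (pk n).1 * q = q
        rw [← hsq, ← mul_assoc, hks], hle, rfl⟩
    have h0 : Filter.Tendsto (fun n => w n - w (n + 1)) Filter.atTop (nhds 0) := by
      simpa using hlim.sub (hlim.comp (Filter.tendsto_add_atTop_nat 1))
    have := ge_of_tendsto h0 (Filter.Eventually.of_forall hc)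
    have : 0 < ‖q ξ‖ ^ 2 := pow_pos (norm_pos_iff.2 hne) 2
    linarith

/-- Finitely many projections cut finitely many vectors into small pieces at once. -/
theorem exists_fine_list (hA : IsMaxAbelian A) (hD : IsDiffuse A) {η : ℝ} (hη : 0 < η) :
    ∀ F : List H, ∃ L, InA A L ∧
      ∀ c ∈ A, IsStarProjection c → Refines c L → ∀ ξ ∈ F, ‖c ξ‖ ^ 2 ≤ η := by
  intro F
  induction F with
  | nil => exact ⟨[], by simp [InA], by simp⟩
  | cons ξ F ih =>
    obtain ⟨L1, h1, h1'⟩ := exists_fine hA hD ξ hη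
    obtain ⟨L2, h2, h2'⟩ := ih
    refine ⟨L1 ++ L2, fun p hp => (List.mem_append.1 hp).elim (h1 p) (h2 p),
      fun c hc hcp hr v hv => ?_⟩
    rcases List.mem_cons.1 hv with rfl | hv
    · exact h1' c hc hcp fun p hp => hr p (List.mem_append_left _ hp)
    · exact h2' c hc hcp (fun p hp => hr p (List.mem_append_right _ hp)) v hv

/-- The pieces generated by a list of commuting projections. -/
def cells : List (H →L[ℂ] H) → List (H →L[ℂ] H)
  | [] => [1]
  | p :: L => (cells L).map (p * ·) ++ (cells L).map ((1 - p) * ·)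

theorem cells_spec (hA : IsMaxAbelian A) : ∀ L, InA A L →
    ∀ c ∈ cells L, c ∈ A ∧ IsStarProjection c ∧ Refines c L
  | [], _, c, hc => by
    simp [cells] at hc
    subst hc
    exact ⟨one_mem A, IsStarProjection.one _, by simp [Refines]⟩
  | p :: L, h, c, hc => by
    have hp := h p List.mem_cons_self
    have hL : InA A L := fun q hq => h q (List.mem_cons_of_mem _ hq)
    simp only [cells, List.mem_append, List.mem_map] at hc
    have aux : ∀ p', p' ∈ A → IsStarProjection p' → (p * p' = p' ∨ p * p' = 0) →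
        ∀ d ∈ cells L, p' * d ∈ A ∧ IsStarProjection (p' * d) ∧ Refines (p' * d) (p :: L) := by
      intro p' hp' hpp' hor d hd
      obtain ⟨hd1, hd2, hd3⟩ := cells_spec hA L hL d hd
      refine ⟨mul_mem hp' hd1, mul_mem_proj hA hp' hd1 hpp' hd2, fun q hq => ?_⟩
      rcases List.mem_cons.1 hq with rfl | hq
      · rw [← mul_assoc]
        rcases hor with e | e <;> simp [e]
      · rw [← mul_assoc, comm_of_mem hA (hL q hq).1 hp', mul_assoc]
        rcases hd3 q hq with e | e <;> simp [e]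
    rcases hc with ⟨d, hd, rfl⟩ | ⟨d, hd, rfl⟩
    · exact aux p hp.1 hp.2 (Or.inl hp.2.isIdempotentElem) d hd
    · exact aux (1 - p) (sub_mem (one_mem A) hp.1) hp.2.one_sub
        (Or.inr hp.2.mul_one_sub_self) d hd

theorem cells_sum : ∀ L : List (H →L[ℂ] H), (cells L).sum = 1
  | [] => by simp [cells]
  | p :: L => by
    have e : ∀ (q : H →L[ℂ] H) (M : List (H →L[ℂ] H)), (M.map (q * ·)).sum = q * M.sum := by
      intro q M
      induction M with
      | nil => simp
      | cons a M ih => simp [ih, mul_add]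
    simp only [cells, List.sum_append, e, cells_sum L, mul_one]
    abel

theorem cells_orth (hA : IsMaxAbelian A) : ∀ L, InA A L →
    (cells L).Pairwise fun c d => c * d = 0 ∧ d * c = 0
  | [], _ => by simp [cells]
  | p :: L, h => by
    have hp := h p List.mem_cons_self
    have hL : InA A L := fun q hq => h q (List.mem_cons_of_mem _ hq)
    have ih := cells_orth hA L hL
    have hmove : ∀ p', p' ∈ A → ∀ p'', ∀ c ∈ cells L, ∀ d : H →L[ℂ] H,
        p'' * c * (p' * d) = p'' * p' * (c * d) := by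
      intro p' hp' p'' c hc d
      rw [mul_assoc, ← mul_assoc c, comm_of_mem hA (cells_spec hA L hL c hc).1 hp']
      simp only [mul_assoc]
    simp only [cells]
    rw [List.pairwise_append, List.pairwise_map, List.pairwise_map]
    refine ⟨ih.imp_of_mem fun {c d} hc hd e => ?_, ih.imp_of_mem fun {c d} hc hd e => ?_, ?_⟩
    · constructor
      · rw [hmove p hp.1 p c hc, e.1, mul_zero]
      · rw [hmove p hp.1 p d hd, e.2, mul_zero]
    · constructor
      · rw [hmove _ (sub_mem (one_mem A) hp.1) _ c hc, e.1, mul_zero]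
      · rw [hmove _ (sub_mem (one_mem A) hp.1) _ d hd, e.2, mul_zero]
    · intro a ha b hb
      obtain ⟨c, hc, rfl⟩ := List.mem_map.1 ha
      obtain ⟨d, hd, rfl⟩ := List.mem_map.1 hb
      constructor
      · rw [hmove _ (sub_mem (one_mem A) hp.1) p c hc, hp.2.mul_one_sub_self, zero_mul]
      · rw [hmove _ hp.1 _ d hd, hp.2.one_sub_mul_self, zero_mul]

/-- Iterated pinching by a list of projections. -/
def pinch (x : H →L[ℂ] H) : List (H →L[ℂ] H) → (H →L[ℂ] H)
  | [] => x
  | p :: L => p * pinch x L * p + (1 - p) * pinch x L * (1 - p)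

theorem pinch_eq (hA : IsMaxAbelian A) (x : H →L[ℂ] H) : ∀ L, InA A L →
    pinch x L = ((cells L).map fun c => c * x * c).sum
  | [], _ => by simp [cells, pinch]
  | p :: L, h => by
    have hp := h p List.mem_cons_self
    have hL : InA A L := fun q hq => h q (List.mem_cons_of_mem _ hq)
    simp only [cells, pinch, pinch_eq hA x L hL, List.map_append, List.map_map, List.sum_append,
      Function.comp_def]
    rw [← List.sum_map_mul_left, ← List.sum_map_mul_right, ← List.sum_map_mul_left,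
      ← List.sum_map_mul_right]
    congr 1 <;> refine congrArg List.sum (List.map_congr_left fun c hc => ?_)
    · conv_rhs => rw [mul_assoc _ x, comm_of_mem hA hp.1 (cells_spec hA L hL c hc).1]
      simp only [mul_assoc]
      rw [← mul_assoc p c, comm_of_mem hA hp.1 (cells_spec hA L hL c hc).1, mul_assoc]
    · conv_rhs => rw [mul_assoc _ x, comm_of_mem hA (sub_mem (one_mem A) hp.1)
        (cells_spec hA L hL c hc).1]
      simp only [mul_assoc]
      rw [← mul_assoc (1 - p) c,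
        comm_of_mem hA (sub_mem (one_mem A) hp.1) (cells_spec hA L hL c hc).1, mul_assoc]

end Vale.Agent.P078
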