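import Mathlib

/-!
Some colouring makes an off-diagonal same-colour sum close to its average.
-/

namespace Vale.Agent.P078

open Finset

variable {r : ℕ}

/-- Centred indicator of two colours being equal. -/
noncomputable def cen (r : ℕ) (c d : Fin r) : ℝ := (if c = d then 1 else 0) - 1 / r

theorem sum_cen (hr : 0 < r) (c : Fin r) : ∑ d, cen r c d = 0 := by
  simp [cen, Finset.sum_sub_distrib]
  field_simp
  ring

theorem sum_cen' (hr : 0 < r) (d : Fin r) : ∑ c, cen r c d = 0 := by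
  simp [cen, Finset.sum_sub_distrib]
  field_simp
  ring

theorem sum_cen_sq (hr : 0 < r) (c : Fin r) : ∑ d, cen r c d ^ 2 ≤ 1 := by
  have e : ∀ d, cen r c d ^ 2 = (if c = d then 1 - 2 / (r : ℝ) else 0) + 1 / (r : ℝ) ^ 2 := by
    intro d
    unfold cen
    split_ifs <;> ring
  simp only [e, Finset.sum_add_distrib, Finset.sum_ite_eq, Finset.mem_univ, if_true,
    Finset.sum_const, Finset.card_univ, Fintype.card_fin, nsmul_eq_mul]
  have : (r : ℝ) * (1 / (r : ℝ) ^ 2) = 1 / r := by field_simp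
  rw [this]
  have : (0 : ℝ) < 1 / r := by positivity
  ring_nf at *
  linarith

theorem sum_sq_shift {ι : Type*} [Fintype ι] (T : ℝ) (X : ι → ℝ) (h : ∑ i, X i = 0) :
    ∑ i, (T + X i) ^ 2 = (Fintype.card ι : ℝ) * T ^ 2 + ∑ i, X i ^ 2 := by
  simp only [add_sq, Finset.sum_add_distrib, ← Finset.mul_sum, h, mul_zero, add_zero,
    Finset.sum_const, Finset.card_univ, nsmul_eq_mul]

theorem linear_bound (hr : 0 < r) : ∀ {m : ℕ} (w : Fin m → ℝ),
    ∑ f : Fin m → Fin r, ∑ c, (∑ l, cen r c (f l) * w l) ^ 2 ≤ (r : ℝ) ^ m * ∑ l, w l ^ 2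
  | 0, w => by simp
  | m + 1, w => by
    rw [← (Fin.consEquiv fun _ => Fin r).sum_comp, Fintype.sum_prod_type, Finset.sum_comm]
    simp only [Fin.consEquiv_apply, Fin.sum_univ_succ, Fin.cons_zero, Fin.cons_succ]
    have ih := linear_bound hr (fun l => w l.succ)
    have key : ∀ f : Fin m → Fin r,
        ∑ d, ∑ c, (cen r c d * w 0 + ∑ l, cen r c (f l) * w l.succ) ^ 2 ≤
          (r : ℝ) * w 0 ^ 2 + r * ∑ c, (∑ l, cen r c (f l) * w l.succ) ^ 2 := by
      intro f
      rw [Finset.sum_comm]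
      simp only [add_comm (cen r _ _ * w 0)]
      calc ∑ c, ∑ d, (∑ l, cen r c (f l) * w l.succ + cen r c d * w 0) ^ 2
          = ∑ c, ((r : ℝ) * (∑ l, cen r c (f l) * w l.succ) ^ 2
              + (∑ d, cen r c d ^ 2) * w 0 ^ 2) := Finset.sum_congr rfl fun c _ => by
            rw [sum_sq_shift _ _ (by rw [← Finset.sum_mul, sum_cen hr, zero_mul]), Fintype.card_fin]
            simp [mul_pow, Finset.sum_mul]
        _ ≤ ∑ c, ((r : ℝ) * (∑ l, cen r c (f l) * w l.succ) ^ 2 + 1 * w 0 ^ 2) := by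
            gcongr with c
            exact sum_cen_sq hr c
        _ = _ := by
            simp [Finset.sum_add_distrib, Finset.mul_sum, add_comm]
    refine (Finset.sum_le_sum fun f _ => key f).trans ?_
    rw [Finset.sum_add_distrib, ← Finset.mul_sum, Finset.sum_const, Finset.card_univ,
      Fintype.card_fun, Fintype.card_fin, Fintype.card_fin, nsmul_eq_mul, Nat.cast_pow,
      pow_succ' (r : ℝ) m, ← Finset.mul_sum]
    have := mul_le_mul_of_nonneg_left ih (Nat.cast_nonneg (α := ℝ) r)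
    linarith

/-- The centred same-colour sum off the diagonal. -/
noncomputable def off {m : ℕ} (z : Fin m → Fin m → ℝ) (f : Fin m → Fin r) : ℝ :=
  ∑ k, ∑ l, if k = l then 0 else cen r (f k) (f l) * z k l

theorem off_bound (hr : 0 < r) : ∀ {m : ℕ} (z : Fin m → Fin m → ℝ),
    ∑ f : Fin m → Fin r, off z f ^ 2 ≤ 2 * (r : ℝ) ^ m * ∑ k, ∑ l, z k l ^ 2
  | 0, z => by simp [off]
  | m + 1, z => by
    rw [← (Fin.consEquiv fun _ => Fin r).sum_comp, Fintype.sum_prod_type, Finset.sum_comm]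
    set w : Fin m → ℝ := fun l => z 0 l.succ + z l.succ 0 with hw
    set T : (Fin m → Fin r) → ℝ := fun f => off (fun k l => z k.succ l.succ) f with hT
    have e : ∀ (c : Fin r) (f : Fin m → Fin r),
        off z (Fin.consEquiv (fun _ => Fin r) (c, f)) = T f + ∑ l, cen r c (f l) * w l := by
      intro c f
      have hsym : ∀ d, cen r d c = cen r c d := fun d => by simp only [cen, eq_comm]
      simp only [off, hT, Fin.consEquiv_apply, Fin.sum_univ_succ, Fin.cons_zero, Fin.cons_succ,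
        (Fin.succ_ne_zero _).symm, Fin.succ_ne_zero, Fin.succ_inj, if_true, if_false, hw, mul_add,
        Finset.sum_add_distrib, hsym]
      ring
    simp only [e]
    have key : ∀ f : Fin m → Fin r, ∑ c, (T f + ∑ l, cen r c (f l) * w l) ^ 2
        = (r : ℝ) * T f ^ 2 + ∑ c, (∑ l, cen r c (f l) * w l) ^ 2 := by
      intro f
      rw [sum_sq_shift _ _ (by
        rw [Finset.sum_comm]
        simp [← Finset.sum_mul, sum_cen' hr]), Fintype.card_fin]
    simp only [key, Finset.sum_add_distrib, ← Finset.mul_sum]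
    have h1 := mul_le_mul_of_nonneg_left (off_bound hr fun k l => z k.succ l.succ)
      (Nat.cast_nonneg (α := ℝ) r)
    have h2 := linear_bound hr w
    have h3 : ∑ l, w l ^ 2 ≤ 2 * ∑ l : Fin m, z 0 l.succ ^ 2 + 2 * ∑ l : Fin m, z l.succ 0 ^ 2 := by
      simp only [Finset.mul_sum, ← Finset.sum_add_distrib]
      exact Finset.sum_le_sum fun l _ => by nlinarith [sq_nonneg (z 0 l.succ - z l.succ 0)]
    have h4 : ∑ l, w l ^ 2 + 2 * ∑ k : Fin m, ∑ l : Fin m, z k.succ l.succ ^ 2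
        ≤ 2 * ∑ k, ∑ l, z k l ^ 2 := by
      simp only [Fin.sum_univ_succ, Finset.sum_add_distrib]
      linarith [sq_nonneg (z 0 0)]
    have hr1 : (1 : ℝ) ≤ r := by exact_mod_cast hr
    have hpow : (r : ℝ) ^ m ≤ (r : ℝ) ^ (m + 1) := pow_le_pow_right₀ hr1 (Nat.le_succ m)
    have hw0 : 0 ≤ ∑ l, w l ^ 2 := Finset.sum_nonneg fun l _ => sq_nonneg _
    have h5 := mul_le_mul_of_nonneg_left h4 (pow_nonneg (Nat.cast_nonneg (α := ℝ) r) (m + 1))
    rw [pow_succ (r : ℝ) m] at h5 hpow ⊢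
    nlinarith [mul_le_mul_of_nonneg_right hpow hw0]

/-- One colouring is good for finitely many arrays at once. -/
theorem exists_colouring (hr : 0 < r) {m : ℕ} {ι : Type*} [Fintype ι]
    (z : ι → Fin m → Fin m → ℝ) :
    ∃ f : Fin m → Fin r, ∑ i, off (z i) f ^ 2 ≤ 2 * ∑ i, ∑ k, ∑ l, z i k l ^ 2 := by
  have : Nonempty (Fin r) := ⟨⟨0, hr⟩⟩
  have h : ∑ f : Fin m → Fin r, ∑ i, off (z i) f ^ 2
      ≤ ∑ _f : Fin m → Fin r, 2 * ∑ i, ∑ k, ∑ l, z i k l ^ 2 := by
    rw [Finset.sum_comm]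
    refine (Finset.sum_le_sum fun i _ => off_bound hr (z i)).trans (le_of_eq ?_)
    simp [Finset.mul_sum]
    ring_nf
  obtain ⟨f, -, hf⟩ := Finset.exists_le_of_sum_le Finset.univ_nonempty h
  exact ⟨f, hf⟩

end Vale.Agent.P078
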