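import Vale.Agent.P078.Limit
import Vale.Agent.P078.Colour

/-!
Diffuse maximal abelian subalgebras of bounded operators: strong-operator paving with
about `2 / ε` pieces.
-/

noncomputable section

open scoped InnerProductSpace

namespace Vale.Agent.P078

variable {H : Type*} [NormedAddCommGroup H] [InnerProductSpace ℂ H] [CompleteSpace H]

/-- `x` is `(ε, r)` so-pavable over `A` inside all bounded operators. -/
def IsSoPavable (A : StarSubalgebra ℂ (H →L[ℂ] H)) (ε : ℝ) (r : ℕ) (x : H →L[ℂ] H) : Prop :=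
  ∀ (F : Finset H) (δ : ℝ), 0 < δ →
    ∃ (p : Fin r → H →L[ℂ] H) (a q : H →L[ℂ] H),
      (∀ i, p i ∈ A ∧ IsStarProjection (p i)) ∧ (∀ i j, i ≠ j → p i * p j = 0) ∧ ∑ i, p i = 1 ∧
      a ∈ A ∧ IsSelfAdjoint a ∧ ‖a‖ ≤ ‖x‖ ∧ IsStarProjection q ∧
      (∀ ξ ∈ F, ‖(1 - q) ξ‖ < δ) ∧ ‖q * (∑ i, p i * x * p i - a) * q‖ ≤ ε * ‖x‖

variable {A : StarSubalgebra ℂ (H →L[ℂ] H)}

theorem soPavable_zero {r : ℕ} (hr : 0 < r) {ε : ℝ} :
    IsSoPavable A ε r (0 : H →L[ℂ] H) := by
  classical
  intro F δ hδ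
  refine ⟨fun i => if i = ⟨0, hr⟩ then 1 else 0, 0, 1, fun i => ?_, fun i j hij => ?_, ?_,
    zero_mem A, IsSelfAdjoint.zero _, le_rfl, IsStarProjection.one _, fun ξ _ => by simpa, by simp⟩
  · dsimp only
    split_ifs
    exacts [⟨one_mem A, IsStarProjection.one _⟩, ⟨zero_mem A, IsStarProjection.zero _⟩]
  · dsimp only
    split_ifs with h1 h2 <;> simp_all
  · simp

theorem norm_compress_le {V : Submodule ℂ H} [V.HasOrthogonalProjection] {N : ℕ}
    (b : OrthonormalBasis (Fin N) ℂ V) (T : H →L[ℂ] H) :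
    ‖V.starProjection * T * V.starProjection‖ ≤ ∑ i, ∑ j, ‖⟪(b i : H), T (b j : H)⟫_ℂ‖ := by
  have hb : ∀ i, ‖(b i : H)‖ = 1 := fun i => b.orthonormal.1 i
  have hq : ∀ v, V.starProjection v = ∑ i, ⟪(b i : H), v⟫_ℂ • (b i : H) := fun v => by
    rw [b.starProjection_eq_sum_rankOne]
    simp [InnerProductSpace.rankOne_apply]
  refine ContinuousLinearMap.opNorm_le_bound _
    (Finset.sum_nonneg fun i _ => Finset.sum_nonneg fun j _ => norm_nonneg _) fun v => ?_
  change ‖V.starProjection (T (V.starProjection v))‖ ≤ _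
  rw [hq v, map_sum, hq]
  refine (norm_sum_le _ _).trans ?_
  rw [Finset.sum_mul]
  refine Finset.sum_le_sum fun i _ => ?_
  rw [norm_smul, hb i, mul_one, inner_sum, Finset.sum_mul]
  refine (norm_sum_le _ _).trans (Finset.sum_le_sum fun j _ => ?_)
  rw [map_smul, inner_smul_right, norm_mul, mul_comm]
  refine mul_le_mul_of_nonneg_left ?_ (norm_nonneg _)
  exact (norm_inner_le_norm _ _).trans (by rw [hb j, one_mul])

theorem sum_sq_proj {m : ℕ} {c : Fin m → H →L[ℂ] H} (hc : ∀ k, IsStarProjection (c k))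
    (h1 : ∑ k, c k = 1) (v : H) : ∑ k, ‖c k v‖ ^ 2 = ‖v‖ ^ 2 := by
  simp only [sq_norm_proj (hc _)]
  rw [← Complex.re_sum, ← inner_sum, ← sum_apply, h1]
  exact inner_self_eq_norm_sq (𝕜 := ℂ) v

theorem entry_sq_le {m : ℕ} {c : Fin m → H →L[ℂ] H} (hc : ∀ k, IsStarProjection (c k))
    (h1 : ∑ k, c k = 1) {x : H →L[ℂ] H} (hx : IsSelfAdjoint x) {u v : H} {η : ℝ}
    (hv : ∀ k, ‖c k v‖ ^ 2 ≤ η) :
    ∑ k, ∑ l, ‖⟪u, (c k * x * c l) v⟫_ℂ‖ ^ 2 ≤ η * ‖x‖ ^ 2 * ‖u‖ ^ 2 := by
  have e : ∀ k l, ‖⟪u, (c k * x * c l) v⟫_ℂ‖ ^ 2 ≤ η * ‖c l (x (c k u))‖ ^ 2 := by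
    intro k l
    have e1 : ⟪u, (c k * x * c l) v⟫_ℂ = ⟪c l (x (c k u)), c l v⟫_ℂ := by
      change ⟪u, c k (x (c l v))⟫_ℂ = _
      rw [← inner_proj (hc k), inner_proj (hc l), proj_apply_apply (hc l),
        ← ContinuousLinearMap.adjoint_inner_left, ← ContinuousLinearMap.star_eq_adjoint, hx.star_eq]
    rw [e1]
    refine (pow_le_pow_left₀ (norm_nonneg _) (norm_inner_le_norm _ _) 2).trans ?_
    rw [mul_pow, mul_comm η]
    exact mul_le_mul_of_nonneg_left (hv l) (sq_nonneg _)
  calc ∑ k, ∑ l, ‖⟪u, (c k * x * c l) v⟫_ℂ‖ ^ 2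
      ≤ ∑ k, η * ‖x (c k u)‖ ^ 2 := by
        refine Finset.sum_le_sum fun k _ => (Finset.sum_le_sum fun l _ => e k l).trans ?_
        rw [← Finset.mul_sum, sum_sq_proj hc h1]
    _ ≤ ∑ k, η * (‖x‖ ^ 2 * ‖c k u‖ ^ 2) := by
        refine Finset.sum_le_sum fun k _ => mul_le_mul_of_nonneg_left ?_
          ((sq_nonneg _).trans (hv k))
        rw [← mul_pow]
        exact pow_le_pow_left₀ (norm_nonneg _) (x.le_opNorm _) 2
    _ = _ := by rw [← Finset.mul_sum, ← Finset.mul_sum, sum_sq_proj hc h1, mul_assoc]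

theorem soPavable_of_diffuse (hA : IsMaxAbelian A) (hD : IsDiffuse A) {ε : ℝ} (hε : 0 < ε)
    {r : ℕ} (hr : 2 / ε < r) {x : H →L[ℂ] H} (hx : IsSelfAdjoint x) : IsSoPavable A ε r x := by
  classical
  have hr0 : (0 : ℝ) < r := lt_trans (by positivity) hr
  have hrn : 0 < r := by exact_mod_cast hr0
  rcases (norm_nonneg x).eq_or_lt with hx0 | hx0
  · rw [norm_eq_zero.1 hx0.symm]
    exact soPavable_zero hrn
  intro F δ hδ
  set gap := (ε - 2 / r) * ‖x‖ with hgap
  have hgap0 : 0 < gap := by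
    refine mul_pos ?_ hx0
    rw [div_lt_iff₀ hε] at hr
    rw [sub_pos, div_lt_iff₀ hr0]
    linarith
  set V : Submodule ℂ H := Submodule.span ℂ (F : Set H) with hV
  have : FiniteDimensional ℂ V := FiniteDimensional.span_finset ℂ F
  set b := stdOrthonormalBasis ℂ V
  set N := Module.finrank ℂ V
  set e : Fin N → H := fun i => (b i : H) with he
  have hen : ∀ i, ‖e i‖ = 1 := fun i => b.orthonormal.1 i
  set η := gap / (2 * ((N : ℝ) ^ 2 + 1)) with hη
  have hη0 : 0 < η := by positivity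
  set η1 := η ^ 2 / (2 * ((N : ℝ) ^ 2 + 1) * ‖x‖ ^ 2) with hη1
  have hη10 : 0 < η1 := by positivity
  obtain ⟨L0, hL0, hfine⟩ := exists_fine_list hA hD hη10 (List.ofFn e)
  obtain ⟨a, haA, has, han, L, hL, hsub, hDa⟩ :=
    exists_limit hA hx L0 hL0 (Finset.univ.image e) hη0
  set m := (cells L).length
  set c : Fin m → H →L[ℂ] H := fun k => (cells L)[(k : ℕ)] with hcdef
  have hcm : ∀ k, c k ∈ cells L := fun k => List.getElem_mem _
  have hcA : ∀ k, c k ∈ A := fun k => (cells_spec hA L hL _ (hcm k)).1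
  have hcp : ∀ k, IsStarProjection (c k) := fun k => (cells_spec hA L hL _ (hcm k)).2.1
  have hcsum : ∑ k, c k = 1 := by
    rw [← cells_sum L, ← List.sum_ofFn]
    exact congrArg List.sum (List.ofFn_getElem (xs := cells L))
  have horth : ∀ k l, k ≠ l → c k * c l = 0 := by
    intro k l hkl
    have h := List.pairwise_iff_getElem.1 (cells_orth hA L hL)
    rcases lt_or_gt_of_ne hkl with h' | h'
    · exact (h k l k.2 l.2 h').1
    · exact (h l k l.2 k.2 h').2
  have hsmall : ∀ k i, ‖c k (e i)‖ ^ 2 ≤ η1 := fun k i =>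
    hfine _ (hcA k) (hcp k) (fun p hp => (cells_spec hA L hL _ (hcm k)).2.2 p (hsub p hp)) _
      (List.mem_ofFn.2 ⟨i, rfl⟩)
  have hpinch : pinch x L = ∑ k, c k * x * c k := by
    rw [pinch_eq hA x L hL, ← List.sum_ofFn]
    refine congrArg List.sum ?_
    conv_lhs => rw [← List.ofFn_getElem (xs := cells L), List.map_ofFn]
    rfl
  let w : (Fin N × Fin N) → Fin m → Fin m → ℂ := fun ij k l => ⟪e ij.1, (c k * x * c l) (e ij.2)⟫_ℂ
  let z : (Fin N × Fin N) × Bool → Fin m → Fin m → ℝ := fun i k l =>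
    if i.2 then (w i.1 k l).re else (w i.1 k l).im
  obtain ⟨f, hf⟩ := exists_colouring (r := r) hrn z
  set p : Fin r → H →L[ℂ] H := fun i => ∑ k, if f k = i then c k else 0 with hp
  have hpA : ∀ i, p i ∈ A := fun i => sum_mem fun k _ => by
    split_ifs
    exacts [hcA k, zero_mem A]
  have hpmul : ∀ i j, p i * p j = if i = j then p i else 0 := by
    intro i j
    simp only [hp, Finset.sum_mul, Finset.mul_sum]
    have : ∀ k l, ((if f k = i then c k else 0) * if f l = j then c l else 0)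
        = if k = l then (if f k = i ∧ f k = j then c k else 0) else 0 := by
      intro k l
      by_cases hkl : k = l
      · subst hkl
        by_cases h1 : f k = i <;> by_cases h2 : f k = j <;>
          simp [h1, h2, (hcp k).isIdempotentElem.eq]
      · by_cases h1 : f k = i <;> by_cases h2 : f l = j <;> simp [h1, h2, hkl, horth k l hkl]
    simp only [this, Finset.sum_ite_eq, Finset.sum_ite_eq', Finset.mem_univ, if_true]
    split_ifs with hij
    · subst hij; simp
    · refine Finset.sum_eq_zero fun k _ => if_neg ?_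
      rintro ⟨h1, h2⟩
      exact hij (h1.symm.trans h2)
  have hpP : ∀ i, IsStarProjection (p i) := fun i =>
    ⟨by simpa [IsIdempotentElem] using hpmul i i, by
      simp only [IsSelfAdjoint, hp, star_sum]
      exact Finset.sum_congr rfl fun k _ => by split_ifs <;> simp [(hcp k).isSelfAdjoint.star_eq]⟩
  have hpsum : ∑ i, p i = 1 := by
    simp only [hp]
    rw [Finset.sum_comm]
    simpa using hcsum
  refine ⟨p, a, V.starProjection, fun i => ⟨hpA i, hpP i⟩,
    fun i j hij => by rw [hpmul, if_neg hij], hpsum, haA, has, han, isStarProjection_starProjection,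
    fun ξ hξ => ?_, ?_⟩
  · have : V.starProjection ξ = ξ :=
      Submodule.starProjection_eq_self_iff.2 (Submodule.subset_span hξ)
    simpa [this] using hδ
  set S := ∑ i, p i * x * p i with hS
  have hSeq : S = ∑ k, ∑ l, (if f k = f l then (1 : ℂ) else 0) • (c k * x * c l) := by
    simp only [hS, hp, Finset.sum_mul, Finset.mul_sum, ite_mul, mul_ite, zero_mul, mul_zero]
    rw [Finset.sum_comm]
    conv_rhs => rw [Finset.sum_comm]
    refine Finset.sum_congr rfl fun l _ => ?_
    rw [Finset.sum_ite_eq, if_pos (Finset.mem_univ _)]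
    refine Finset.sum_congr rfl fun k _ => ?_
    by_cases h : f k = f l <;> simp [h]
  have hxeq : x = ∑ k, ∑ l, c k * x * c l := by
    conv_lhs => rw [← one_mul x, ← mul_one (1 * x), ← hcsum, Finset.sum_mul, Finset.sum_mul]
    exact Finset.sum_congr rfl fun k _ => by rw [Finset.mul_sum]
  set M := (1 / r : ℂ) • x + (1 - 1 / r : ℂ) • pinch x L with hM
  have hoff : ∀ ij : Fin N × Fin N, ‖⟪e ij.1, (S - M) (e ij.2)⟫_ℂ‖ ^ 2 ≤ η ^ 2 := by
    intro ij
    have hdec : ⟪e ij.1, (S - M) (e ij.2)⟫_ℂ =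
        ∑ k, ∑ l, if k = l then 0 else (cen r (f k) (f l) : ℂ) * w ij k l := by
      have : S - M = ∑ k, ∑ l, if k = l then (0 : H →L[ℂ] H) else
          (cen r (f k) (f l) : ℂ) • (c k * x * c l) := by
        have hd : pinch x L = ∑ k, ∑ l, (if k = l then (1 : ℂ) else 0) • (c k * x * c l) := by
          rw [hpinch]; simp
        have hx' : (1 / r : ℂ) • x = ∑ k, ∑ l, (1 / r : ℂ) • (c k * x * c l) := by
          conv_lhs => rw [hxeq]
          simp only [Finset.smul_sum]
        rw [hSeq, hM, hd, hx']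
        simp only [Finset.smul_sum, ← Finset.sum_sub_distrib, ← Finset.sum_add_distrib, smul_smul]
        refine Finset.sum_congr rfl fun k _ => Finset.sum_congr rfl fun l _ => ?_
        rw [← add_smul, ← sub_smul]
        by_cases hkl : k = l
        · subst hkl; simp
        · rw [if_neg hkl, if_neg hkl]
          by_cases h : f k = f l <;> simp only [cen, h, if_true, if_false] <;> push_cast <;>
            congr 1 <;> ring
      rw [this]
      simp only [sum_apply, inner_sum]
      refine Finset.sum_congr rfl fun k _ => Finset.sum_congr rfl fun l _ => ?_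
      split_ifs
      · simp
      · rw [smul_apply, inner_smul_right]
    have hre : (⟪e ij.1, (S - M) (e ij.2)⟫_ℂ).re = off (z (ij, true)) f := by
      rw [hdec, Complex.re_sum]
      simp only [off, Complex.re_sum]
      refine Finset.sum_congr rfl fun k _ => Finset.sum_congr rfl fun l _ => ?_
      split_ifs <;> simp [z]
    have him : (⟪e ij.1, (S - M) (e ij.2)⟫_ℂ).im = off (z (ij, false)) f := by
      rw [hdec, Complex.im_sum]
      simp only [off, Complex.im_sum]
      refine Finset.sum_congr rfl fun k _ => Finset.sum_congr rfl fun l _ => ?_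
      split_ifs <;> simp [z]
    have hn : ∀ u : ℂ, ‖u‖ ^ 2 = u.re ^ 2 + u.im ^ 2 := fun u => by
      rw [Complex.sq_norm, Complex.normSq_apply]; ring
    rw [hn, hre, him]
    calc off (z (ij, true)) f ^ 2 + off (z (ij, false)) f ^ 2
        = ∑ s : Bool, off (z (ij, s)) f ^ 2 := by simp
      _ ≤ ∑ i : (Fin N × Fin N) × Bool, off (z i) f ^ 2 := by
          rw [Fintype.sum_prod_type (f := fun i : (Fin N × Fin N) × Bool => off (z i) f ^ 2)]
          exact Finset.single_le_sum (f := fun ij => ∑ s : Bool, off (z (ij, s)) f ^ 2)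
            (fun i _ => Finset.sum_nonneg fun s _ => sq_nonneg _) (Finset.mem_univ ij)
      _ ≤ 2 * ∑ i, ∑ k, ∑ l, z i k l ^ 2 := hf
      _ = 2 * ∑ ij, ∑ k, ∑ l, ‖w ij k l‖ ^ 2 := by
          rw [Fintype.sum_prod_type]
          congr 1
          refine Finset.sum_congr rfl fun ij _ => ?_
          simp [z, hn, Finset.sum_add_distrib]
      _ ≤ 2 * ∑ _ij : Fin N × Fin N, η1 * ‖x‖ ^ 2 := by
          gcongr with ij
          refine (entry_sq_le hcp hcsum hx fun k => hsmall k ij.2).trans (le_of_eq ?_)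
          rw [hen, one_pow, mul_one]
      _ ≤ η ^ 2 := by
          simp only [Finset.sum_const, Finset.card_univ, Fintype.card_prod, Fintype.card_fin,
            nsmul_eq_mul, Nat.cast_mul, hη1]
          field_simp
          nlinarith [sq_nonneg η, mul_nonneg (sq_nonneg η) (sq_nonneg (N : ℝ))]
  have hsplit : S - a = (S - M) + (1 - 1 / r : ℂ) • (pinch x L - a) + (1 / r : ℂ) • (x - a) := by
    rw [hM]
    module
  set q := V.starProjection with hqdef
  have hq1 : ‖q‖ ≤ 1 := Submodule.starProjection_norm_le V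
  have h1r : ‖(1 - 1 / r : ℂ)‖ ≤ 1 := by
    rw [show (1 - 1 / r : ℂ) = ((1 - 1 / r : ℝ) : ℂ) by push_cast; ring, Complex.norm_real,
      Real.norm_eq_abs, abs_le]
    have : (1 : ℝ) / r ≤ 1 := by rw [div_le_one hr0]; exact_mod_cast hrn
    have : (0 : ℝ) ≤ 1 / r := by positivity
    constructor <;> linarith
  have hAB : ‖q * ((S - M) + (1 - 1 / r : ℂ) • (pinch x L - a)) * q‖ ≤ gap := by
    refine (norm_compress_le b _).trans ?_
    calc ∑ i, ∑ j, ‖⟪(b i : H), ((S - M) + (1 - 1 / r : ℂ) • (pinch x L - a)) (b j : H)⟫_ℂ‖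
        ≤ ∑ _i : Fin N, ∑ _j : Fin N, (η + η) := by
          refine Finset.sum_le_sum fun i _ => Finset.sum_le_sum fun j _ => ?_
          rw [add_apply, inner_add_right, smul_apply, inner_smul_right]
          refine (norm_add_le _ _).trans (add_le_add ?_ ?_)
          · exact (pow_le_pow_iff_left₀ (norm_nonneg _) hη0.le two_ne_zero).1 (hoff (i, j))
          · rw [norm_mul]
            refine le_trans (mul_le_of_le_one_left (norm_nonneg _) h1r) ?_
            exact hDa _ (Finset.mem_image_of_mem e (Finset.mem_univ i)) _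
              (Finset.mem_image_of_mem e (Finset.mem_univ j))
      _ ≤ gap := by
          simp only [Finset.sum_const, Finset.card_univ, Fintype.card_fin, nsmul_eq_mul, hη]
          field_simp
          nlinarith
  have hC : ‖q * ((1 / r : ℂ) • (x - a)) * q‖ ≤ 2 / r * ‖x‖ := by
    calc ‖q * ((1 / r : ℂ) • (x - a)) * q‖ ≤ ‖q‖ * ‖(1 / r : ℂ) • (x - a)‖ * ‖q‖ :=
          (norm_mul_le _ _).trans (mul_le_mul_of_nonneg_right (norm_mul_le _ _) (norm_nonneg _))
      _ ≤ 1 * ‖(1 / r : ℂ) • (x - a)‖ * 1 := by gcongr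
      _ ≤ 1 / r * (‖x‖ + ‖x‖) := by
          rw [one_mul, mul_one, norm_smul, norm_div, norm_one, Complex.norm_natCast]
          gcongr
          exact (norm_sub_le _ _).trans (add_le_add le_rfl han)
      _ = _ := by ring
  calc ‖q * (S - a) * q‖ ≤ gap + 2 / r * ‖x‖ := by
        rw [hsplit, mul_add, add_mul]
        exact (norm_add_le _ _).trans (add_le_add hAB hC)
    _ = ε * ‖x‖ := by rw [hgap]; ring

end Vale.Agent.P078
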