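import Mathlib

/-!
The pointwise bound of the trace of the second variation on a free cell, and the count of the
free weight.
-/

namespace Vale.Agent.P078

/-- On a free cell the trace of the second variation forms is a small multiple of `R` minus
`κ R`, up to an error linear in `|E y|`. Here `d = R / lam`. -/
theorem trace_form_le {R lam Lam ep em W₁ W₂ Wy z a Th K κ β : ℝ} (hR : 0 ≤ R) (hR1 : R ≤ 1) (hlam : 0 < lam)
    (hz : 0 < z) (hep : 0 ≤ ep) (hem : 0 ≤ em) (hW₁ : 0 ≤ W₁) (hW₂ : 0 ≤ W₂) (hWy : 0 ≤ Wy)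
    (hK : ep + em ≤ K) (hβ : 0 < β) (ha : R * |a| ≤ z) (hLam0 : 0 ≤ Lam)
    (hLam : Lam ≤ Th * lam) (hbudget : W₁ + W₂ + Wy + Lam * (ep + em) ≤ 2 * lam) :
    R / lam * ((ep + a / z) * W₁ + (em - a / z) * W₂ + Lam * (ep + a / z) ^ 2 +
        Lam * (em - a / z) ^ 2 + Lam * (a / z) ^ 2 + (ep + em) * Wy / (4 * β)) - κ * R ≤
      ((8 + 1 / (2 * β)) * K - κ) * R + (2 + 5 * Th) * (|a| / z) := by
  set d : ℝ := R / lam with hd
  have hd0 : 0 ≤ d := by positivity
  set x : ℝ := |a| / z with hx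
  have hx0 : 0 ≤ x := by positivity
  have hRx : R * x ≤ 1 := by
    rw [hx, ← mul_div_assoc, div_le_one hz]; exact ha
  have hax : |a / z| = x := by rw [hx, abs_div, abs_of_pos hz]
  have hd2 : d * (W₁ + W₂ + Wy + Lam * (ep + em)) ≤ 2 * R := by
    refine (mul_le_mul_of_nonneg_left hbudget hd0).trans_eq ?_
    rw [hd]; field_simp
  have hdLam : d * Lam ≤ Th * R := by
    refine (mul_le_mul_of_nonneg_left hLam hd0).trans_eq ?_
    rw [hd]; field_simp
  have hK0 : 0 ≤ K := le_trans (by positivity) hK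
  -- the terms with `e`
  have t1 : d * ((ep + a / z) * W₁ + (em - a / z) * W₂) ≤ 2 * K * R + 2 * x * R := by
    have b1 : (ep + a / z) * W₁ ≤ (K + x) * W₁ :=
      mul_le_mul_of_nonneg_right (by linarith [le_abs_self (a / z), hax]) hW₁
    have b2 : (em - a / z) * W₂ ≤ (K + x) * W₂ :=
      mul_le_mul_of_nonneg_right (by linarith [neg_abs_le (a / z), hax]) hW₂
    have b3 : d * (W₁ + W₂) ≤ 2 * R := by
      nlinarith [mul_nonneg hd0 hWy, mul_nonneg hd0 (mul_nonneg hLam0 (add_nonneg hep hem))]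
    nlinarith [mul_le_mul_of_nonneg_left (add_le_add b1 b2) hd0,
      mul_le_mul_of_nonneg_left b3 (add_nonneg hK0 hx0)]
  have t2 : d * (Lam * (ep + a / z) ^ 2 + Lam * (em - a / z) ^ 2 + Lam * (a / z) ^ 2) ≤
      6 * K * R + 5 * Th * (R * x ^ 2) := by
    have hxs : (a / z) ^ 2 = x ^ 2 := by rw [← hax, sq_abs]
    have q1 : (ep + a / z) ^ 2 ≤ 2 * ep ^ 2 + 2 * x ^ 2 := by
      linarith [sq_nonneg (ep - a / z)]
    have q2 : (em - a / z) ^ 2 ≤ 2 * em ^ 2 + 2 * x ^ 2 := by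
      linarith [sq_nonneg (em + a / z)]
    have q3 : ep ^ 2 + em ^ 2 ≤ K * (ep + em) := by
      linarith [mul_le_mul_of_nonneg_right hK (add_nonneg hep hem), mul_nonneg hep hem]
    have b1 : (ep + a / z) ^ 2 + (em - a / z) ^ 2 + (a / z) ^ 2 ≤
        2 * (K * (ep + em)) + 5 * x ^ 2 := by
      linarith
    have b2 : d * Lam * (ep + em) ≤ 2 * R := by
      linarith [mul_nonneg hd0 hW₁, mul_nonneg hd0 hW₂, mul_nonneg hd0 hWy]
    have b3 : d * Lam * (2 * (K * (ep + em))) ≤ 4 * (K * R) := by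
      linarith [mul_le_mul_of_nonneg_left b2 hK0]
    have b4 : d * Lam * (5 * x ^ 2) ≤ 5 * Th * (R * x ^ 2) := by
      linarith [mul_le_mul_of_nonneg_right hdLam (sq_nonneg x)]
    have b5 : d * Lam * ((ep + a / z) ^ 2 + (em - a / z) ^ 2 + (a / z) ^ 2) ≤
        d * Lam * (2 * (K * (ep + em)) + 5 * x ^ 2) :=
      mul_le_mul_of_nonneg_left b1 (mul_nonneg hd0 hLam0)
    linarith [mul_nonneg hK0 hR]
  have t3 : d * ((ep + em) * Wy / (4 * β)) ≤ 1 / (2 * β) * K * R := by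
    have b1 : d * ((ep + em) * Wy) ≤ 2 * R * K := by
      have : d * Wy ≤ 2 * R := by
        nlinarith [mul_nonneg hd0 hW₁, mul_nonneg hd0 hW₂,
          mul_nonneg hd0 (mul_nonneg hLam0 (add_nonneg hep hem))]
      nlinarith [mul_le_mul this hK (add_nonneg hep hem) (by linarith)]
    rw [← mul_div_assoc, div_le_iff₀ (by positivity)]
    refine b1.trans_eq ?_
    field_simp
    ring
  have hxx : R * x ^ 2 ≤ x := by nlinarith
  have hTh : 0 ≤ Th := by
    by_contra h0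
    nlinarith [mul_pos (neg_pos.2 (not_le.1 h0)) hlam]
  have hxR : x * R ≤ x * 1 := mul_le_mul_of_nonneg_left hR1 hx0
  linarith [mul_le_mul_of_nonneg_left hxx hTh]

/-- The loads above `K` carry a small part of the weight. -/
theorem sum_weight_high_load_le {ι : Type*} (s : Finset ι) {R e : ι → ℝ} {Th K : ℝ}
    (hR : ∀ i ∈ s, 0 ≤ R i) (he : ∀ i ∈ s, 0 ≤ e i) (hTh : 0 < Th)
    (hload : Th * ∑ i ∈ s, R i * e i ≤ ∑ i ∈ s, R i) :
    Th * K * ∑ i ∈ s.filter (fun i => K < e i), R i ≤ ∑ i ∈ s, R i := by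
  refine le_trans ?_ hload
  rw [mul_assoc, Finset.mul_sum]
  refine mul_le_mul_of_nonneg_left ?_ hTh.le
  refine le_trans (Finset.sum_le_sum fun i hi => ?_)
    (Finset.sum_le_sum_of_subset_of_nonneg (Finset.filter_subset _ s)
      fun i hi _ => mul_nonneg (hR i hi) (he i hi))
  rw [Finset.mem_filter] at hi
  rw [mul_comm]
  exact mul_le_mul_of_nonneg_left hi.2.le (hR i hi.1)

end Vale.Agent.P078
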