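import Vale.Agent.P078.Basic

/-!
A weak cluster point of iterated pinchings lies in the algebra.
-/

noncomputable section

open scoped InnerProductSpace
open Filter

namespace Vale.Agent.P078

variable {H : Type*} [NormedAddCommGroup H] [InnerProductSpace ℂ H] [CompleteSpace H]
variable {A : StarSubalgebra ℂ (H →L[ℂ] H)}

theorem norm_pinch_le {p X : H →L[ℂ] H} (hp : IsStarProjection p) :
    ‖p * X * p + (1 - p) * X * (1 - p)‖ ≤ ‖X‖ := by
  set u := p + p - 1 with hu
  have hsu : star u = u := by simp [hu, hp.isSelfAdjoint.star_eq]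
  have huu : u * u = 1 := by
    simp only [hu, sub_mul, mul_sub, add_mul, mul_add, hp.isIdempotentElem.eq, one_mul, mul_one]
    abel
  have e : (2 : ℂ) • (p * X * p + (1 - p) * X * (1 - p)) = X + u * X * u := by
    simp only [hu, two_smul, sub_mul, mul_sub, add_mul, mul_add, one_mul, mul_one]
    abel
  have hun : ‖u‖ ≤ 1 := by
    have h := CStarRing.norm_star_mul_self (x := u)
    rw [hsu, huu] at h
    have h1 := ContinuousLinearMap.norm_id_le (𝕜 := ℂ) (E := H)
    rw [← ContinuousLinearMap.one_def, h] at h1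
    nlinarith [norm_nonneg u]
  have h2 : ‖u * X * u‖ ≤ ‖X‖ := by
    calc ‖u * X * u‖ ≤ ‖u * X‖ * ‖u‖ := norm_mul_le _ _
      _ ≤ ‖u‖ * ‖X‖ * ‖u‖ := mul_le_mul_of_nonneg_right (norm_mul_le _ _) (norm_nonneg _)
      _ ≤ 1 * ‖X‖ * 1 := by gcongr
      _ = ‖X‖ := by ring
  have := congrArg norm e
  rw [norm_smul, Complex.norm_ofNat] at this
  linarith [norm_add_le X (u * X * u)]

theorem pinch_norm_le (x : H →L[ℂ] H) : ∀ L, InA A L → ‖pinch x L‖ ≤ ‖x‖
  | [], _ => le_rfl
  | p :: L, h => (norm_pinch_le (h p List.mem_cons_self).2).trans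
      (pinch_norm_le x L fun q hq => h q (List.mem_cons_of_mem _ hq))

theorem pinch_selfAdjoint {x : H →L[ℂ] H} (hx : IsSelfAdjoint x) :
    ∀ L, InA A L → IsSelfAdjoint (pinch x L)
  | [], _ => hx
  | p :: L, h => by
    have ih := pinch_selfAdjoint hx L fun q hq => h q (List.mem_cons_of_mem _ hq)
    have hp := (h p List.mem_cons_self).2
    have hq := hp.one_sub
    rw [IsSelfAdjoint]
    simp only [pinch, star_add, star_mul, ih.star_eq, hp.isSelfAdjoint.star_eq,
      hq.isSelfAdjoint.star_eq, mul_assoc]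

theorem pinch_comm (hA : IsMaxAbelian A) (x : H →L[ℂ] H) : ∀ L, InA A L →
    ∀ p ∈ L, p * pinch x L = pinch x L * p
  | [], _, p, hp => by simp at hp
  | q :: L, h, p, hp => by
    have hq := h q List.mem_cons_self
    simp only [pinch]
    rcases List.mem_cons.1 hp with rfl | hp'
    · simp only [mul_add, add_mul, ← mul_assoc, hq.2.isIdempotentElem.eq, hq.2.mul_one_sub_self]
      simp only [mul_assoc, hq.2.isIdempotentElem.eq, hq.2.one_sub_mul_self, mul_zero, zero_mul]
    · have hpA := (h p hp).1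
      have ih := pinch_comm hA x L (fun r hr => h r (List.mem_cons_of_mem _ hr)) p hp'
      have key : ∀ r ∈ A, p * (r * pinch x L * r) = r * pinch x L * r * p := by
        intro r hr
        rw [← mul_assoc, ← mul_assoc, comm_of_mem hA hpA hr, mul_assoc r p, ih]
        simp only [mul_assoc, comm_of_mem hA hpA hr]
      rw [mul_add, add_mul, key q hq.1, key _ (sub_mem (one_mem A) hq.1)]

/-- An operator commuting with the projections of `A` belongs to `A`. -/
theorem mem_of_comm_proj (hA : IsMaxAbelian A) {a : H →L[ℂ] H}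
    (ha : ∀ p ∈ A, IsStarProjection p → a * p = p * a) : a ∈ A := by
  refine (hA a).2 ?_
  suffices hsa : ∀ b ∈ A, IsSelfAdjoint b → a * b = b * a by
    intro b hb
    set u := b + star b with hu
    set v := Complex.I • (b - star b) with hv
    have e : b = (1 / 2 : ℂ) • (u - Complex.I • v) := by
      rw [hu, hv, smul_smul, Complex.I_mul_I, neg_one_smul, sub_neg_eq_add]
      rw [show b + star b + (b - star b) = (2 : ℂ) • b by rw [two_smul]; abel, smul_smul]
      norm_num
    have hu' := hsa u (add_mem hb (star_mem hb)) (IsSelfAdjoint.add_star_self b)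
    have hv' := hsa v (A.smul_mem (sub_mem hb (star_mem hb)) _) (by
      rw [IsSelfAdjoint, hv, star_smul, star_sub, star_star, Complex.star_def, Complex.conj_I,
        neg_smul, ← smul_neg, neg_sub])
    rw [e]
    simp only [mul_smul_comm, smul_mul_assoc, mul_sub, sub_mul, hu', hv']
  intro b hb hbs
  set M := ‖b‖ + 1 with hM
  have hMp : 0 < M := by rw [hM]; linarith [norm_nonneg b]
  rw [← sub_eq_zero, ← norm_le_zero_iff]
  refine le_of_forall_pos_le_add fun ε hε => ?_
  obtain ⟨n, hn⟩ := exists_nat_gt (4 * ‖a‖ * M / ε)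
  have hn0 : 0 < (n : ℝ) := lt_of_le_of_lt (by positivity) hn
  set h : ℝ := 2 * M / n with hh
  have hh0 : 0 < h := by positivity
  set t : ℕ → ℝ := fun k => -M + k * h with ht
  have hspec : ∀ s ∈ spectrum ℝ b, -M ≤ s ∧ s ≤ M := by
    intro s hs
    by_cases hHne : Nontrivial (H →L[ℂ] H)
    · have := spectrum.norm_le_norm_of_mem hs
      rw [Real.norm_eq_abs, abs_le] at this
      constructor <;> linarith [norm_nonneg b]
    · have := not_nontrivial_iff_subsingleton.1 hHne
      simp [spectrum.of_subsingleton b] at hs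
  set pos : ℕ → ℝ → ℝ := fun k s => max 0 (s - t k) with hpos
  set g : ℕ → ℝ → ℝ := fun k s => max 0 (min h (s - t k)) with hg
  have hq : ∀ k, ∃ q ∈ A, IsStarProjection q ∧
      (∀ v, q (cfc (pos k) b v) = cfc (pos k) b v) ∧
      ∀ T : H →L[ℂ] H, T * cfc (pos k) b = 0 → T * q = 0 := by
    intro k
    obtain ⟨s, hs, hsp, hfix, hker⟩ := exists_proj_closure hA
      (LinearMap.range ((cfc (pos k) b : H →L[ℂ] H) : H →ₗ[ℂ] H)) (by
        rintro c hc v ⟨w, rfl⟩
        refine ⟨c w, ?_⟩
        change (cfc (pos k) b * c) w = (c * cfc (pos k) b) w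
        rw [((show Commute b c from comm_of_mem hA hb hc).cfc_real (pos k)).eq])
    exact ⟨s, hs, hsp, fun v => hfix _ ⟨v, rfl⟩, fun T hT => hker T (by
      rintro v ⟨w, rfl⟩
      exact congrArg (fun S : H →L[ℂ] H => S w) hT)⟩
  choose q hqA hqp hqfix hqker using hq
  have hposA : ∀ k, cfc (pos k) b ∈ A := fun k => (hA _).2 fun c hc =>
    ((show Commute b c from comm_of_mem hA hb hc).cfc_real (pos k)).eq
  have hgA : ∀ k, cfc (g k) b ∈ A := fun k => (hA _).2 fun c hc =>
    ((show Commute b c from comm_of_mem hA hb hc).cfc_real (g k)).eq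
  have hgnn : ∀ k, 0 ≤ cfc (g k) b := fun k => cfc_nonneg fun s _ => le_max_left _ _
  have hgle : ∀ k, cfc (g k) b ≤ algebraMap ℝ (H →L[ℂ] H) h := fun k =>
    cfc_le_algebraMap _ _ _ (fun s _ => max_le hh0.le (min_le_left _ _))
  have hqfix' : ∀ k, q k * cfc (pos k) b = cfc (pos k) b := fun k => by
    ext v; exact hqfix k v
  have hupper : ∀ k, cfc (g k) b ≤ h • q k := by
    intro k
    have e : cfc (g k) b = cfc (fun s => h / max h (s - t k)) b * cfc (pos k) b := by
      have hψ : Continuous fun s => h / max h (s - t k) := continuous_const.div (by fun_prop)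
        fun s => (lt_max_of_lt_left hh0).ne'
      rw [← cfc_mul _ _ b hψ.continuousOn (by fun_prop)]
      refine cfc_congr fun s _ => ?_
      simp only [hg, hpos]
      rcases le_total (s - t k) 0 with h1 | h1
      · simp [h1, hh0.le, le_trans h1 hh0.le]
      · rw [max_eq_right h1, max_eq_right (le_min hh0.le h1)]
        rcases le_total (s - t k) h with h2 | h2
        · rw [max_eq_left h2, min_eq_right h2, div_self hh0.ne', one_mul]
        · rw [max_eq_right h2, min_eq_left h2, div_mul_cancel₀]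
          linarith
    have e2 : q k * cfc (g k) b * q k = cfc (g k) b := by
      rw [mul_assoc, comm_of_mem hA (hgA k) (hqA k), ← mul_assoc, (hqp k).isIdempotentElem.eq,
        comm_of_mem hA (hqA k) (hgA k)]
      conv_rhs => rw [e, ← hqfix' k]
      conv_lhs => rw [e, mul_assoc, comm_of_mem hA (hposA k) (hqA k)]
    have h3 := star_left_conjugate_le_conjugate (hgle k) (q k)
    rw [(hqp k).isSelfAdjoint.star_eq, e2] at h3
    refine h3.trans (le_of_eq ?_)
    rw [Algebra.algebraMap_eq_smul_one, mul_smul_comm, mul_one, smul_mul_assoc,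
      (hqp k).isIdempotentElem.eq]
  have hlower : ∀ k, h • q (k + 1) ≤ cfc (g k) b := by
    intro k
    have e : (cfc (g k) b - algebraMap ℝ (H →L[ℂ] H) h) * cfc (pos (k + 1)) b = 0 := by
      rw [← cfc_const h b, ← cfc_sub _ _ b (by fun_prop) (by fun_prop),
        ← cfc_mul _ _ b (by fun_prop) (by fun_prop),
        ← cfc_zero ℝ b]
      refine cfc_congr fun s _ => ?_
      simp only [hg, hpos, Pi.zero_apply, ht]
      push_cast
      rcases le_total (s - (-M + (k + 1) * h)) 0 with h1 | h1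
      · simp [h1]
      · rw [min_eq_left (by linarith), max_eq_right hh0.le, sub_self, zero_mul]
    have e2 := hqker (k + 1) _ e
    rw [sub_mul, sub_eq_zero, Algebra.algebraMap_eq_smul_one, smul_mul_assoc, one_mul] at e2
    rw [← e2, ← sub_nonneg]
    set q' := q (k + 1)
    have e3 : cfc (g k) b - cfc (g k) b * q' = star (1 - q') * cfc (g k) b * (1 - q') := by
      rw [(hqp (k + 1)).one_sub.isSelfAdjoint.star_eq, ← comm_of_mem hA (hgA k)
        (sub_mem (one_mem A) (hqA (k + 1))), mul_assoc, (hqp (k + 1)).one_sub.isIdempotentElem.eq,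
        mul_sub, mul_one]
    rw [e3]
    exact star_left_conjugate_nonneg (hgnn k) _
  have hsum : ∀ s, -M ≤ s → ∀ m : ℕ,
      ∑ k ∈ Finset.range m, g k s = min (m * h) (s + M) := by
    intro s hs m
    induction m with
    | zero => simp; linarith
    | succ m ih =>
      rw [Finset.sum_range_succ, ih]
      simp only [hg, ht]
      push_cast
      rcases le_total (s + M) (m * h) with h1 | h1
      · rw [min_eq_right h1, min_eq_right (a := (m + 1) * h) (by nlinarith),
          max_eq_left (min_le_of_right_le (by linarith)), add_zero]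
      · rcases le_total (s + M) ((m + 1) * h) with h2 | h2
        · rw [min_eq_left h1, min_eq_right h2, min_eq_right (by linarith), max_eq_right (by linarith)]
          ring
        · rw [min_eq_left h1, min_eq_left h2, min_eq_left (by linarith), max_eq_right hh0.le]
          ring
  have hcsum : ∑ k ∈ Finset.range n, cfc (g k) b = b + algebraMap ℝ (H →L[ℂ] H) M := by
    rw [← cfc_sum g b _ (fun k _ => by fun_prop)]
    have : Set.EqOn (∑ k ∈ Finset.range n, g k) (fun s => s + M) (spectrum ℝ b) := by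
      intro s hs
      rw [Finset.sum_apply, hsum s (hspec s hs).1 n]
      refine min_eq_right ?_
      rw [hh, mul_div_cancel₀ _ hn0.ne']
      linarith [(hspec s hs).2]
    rw [cfc_congr this, cfc_add_const M (fun s => s) b, cfc_id' ℝ b]
  set Q := ∑ k ∈ Finset.range n, h • q k with hQ
  set R := Q - (b + algebraMap ℝ (H →L[ℂ] H) M) with hR
  have hR0 : 0 ≤ R := by
    rw [hR, sub_nonneg, ← hcsum]
    exact Finset.sum_le_sum fun k _ => hupper k
  have hR1 : R ≤ algebraMap ℝ (H →L[ℂ] H) h := by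
    have h1 : R ≤ ∑ k ∈ Finset.range n, (h • q k - h • q (k + 1)) := by
      rw [hR, Finset.sum_sub_distrib, ← hcsum]
      exact sub_le_sub_left (Finset.sum_le_sum fun k _ => hlower k) _
    rw [Finset.sum_range_sub' (fun k => h • q k)] at h1
    refine h1.trans ?_
    rw [sub_le_iff_le_add, Algebra.algebraMap_eq_smul_one]
    calc h • q 0 ≤ h • 1 := smul_le_smul_of_nonneg_left (sub_nonneg.1 (hqp 0).one_sub.nonneg) hh0.le
      _ ≤ _ := le_add_of_nonneg_right (smul_nonneg hh0.le (hqp n).nonneg)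
  have hRn : ‖R‖ ≤ h := by
    refine (CStarAlgebra.norm_le_norm_of_nonneg_of_le hR0 hR1).trans ?_
    rw [Algebra.algebraMap_eq_smul_one, norm_smul, Real.norm_eq_abs, abs_of_pos hh0]
    exact mul_le_of_le_one_right hh0.le ContinuousLinearMap.norm_id_le
  have hcomm : a * Q = Q * a := by
    simp only [hQ, Finset.mul_sum, Finset.sum_mul, mul_smul_comm, smul_mul_assoc]
    exact Finset.sum_congr rfl fun k _ => by rw [ha _ (hqA k) (hqp k)]
  have e : a * b - b * a = R * a - a * R := by
    simp only [hR, Algebra.algebraMap_eq_smul_one, mul_sub, sub_mul, mul_add, add_mul,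
      mul_smul_comm, smul_mul_assoc, one_mul, mul_one, hcomm]
    abel
  rw [e, zero_add]
  refine (norm_sub_le _ _).trans ?_
  have : 2 * ‖a‖ * h ≤ ε := by
    rw [div_lt_iff₀ hε] at hn
    rw [hh, mul_div, div_le_iff₀ hn0]
    linarith
  nlinarith [norm_mul_le R a, norm_mul_le a R, norm_nonneg a, norm_nonneg R]

/-- The matrix entries of some element of `A` are approached by those of fine pinchings. -/
theorem exists_limit (hA : IsMaxAbelian A) {x : H →L[ℂ] H} (hx : IsSelfAdjoint x)
    (L0 : List (H →L[ℂ] H)) (hL0 : InA A L0) (F : Finset H) {η : ℝ} (hη : 0 < η) :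
    ∃ a ∈ A, IsSelfAdjoint a ∧ ‖a‖ ≤ ‖x‖ ∧ ∃ L, InA A L ∧ (∀ p ∈ L0, p ∈ L) ∧
      ∀ v ∈ F, ∀ w ∈ F, ‖⟪v, (pinch x L - a) w⟫_ℂ‖ ≤ η := by
  classical
  let I := Finset {p : H →L[ℂ] H // p ∈ A ∧ IsStarProjection p}
  let D : I → (H →L[ℂ] H) := fun s => pinch x (s.toList.map Subtype.val)
  have hIn : ∀ s : I, InA A (s.toList.map Subtype.val) := fun s p hp => by
    obtain ⟨q, -, rfl⟩ := List.mem_map.1 hp
    exact q.2
  let U : Ultrafilter I := Ultrafilter.of atTop
  have hU : (U : Filter I) ≤ atTop := Ultrafilter.of_le _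
  have hbd : ∀ s v w, ‖⟪D s v, w⟫_ℂ‖ ≤ ‖x‖ * ‖v‖ * ‖w‖ := fun s v w =>
    (norm_inner_le_norm _ _).trans (mul_le_mul_of_nonneg_right (((D s).le_opNorm v).trans
      (mul_le_mul_of_nonneg_right (pinch_norm_le x _ (hIn s)) (norm_nonneg _))) (norm_nonneg _))
  have hex : ∀ v w, ∃ l, Tendsto (fun s => ⟪D s v, w⟫_ℂ) U (nhds l) := by
    intro v w
    obtain ⟨l, -, hl⟩ := (isCompact_closedBall (0 : ℂ) (‖x‖ * ‖v‖ * ‖w‖)).ultrafilter_le_nhds
      (U.map fun s => ⟪D s v, w⟫_ℂ) (le_principal_iff.2 (Filter.mem_map.2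
        (Filter.Eventually.of_forall fun (s : I) => by simpa using hbd s v w)))
    exact ⟨l, hl⟩
  choose l hl using hex
  let B0 : H →ₗ⋆[ℂ] H →ₗ[ℂ] ℂ := LinearMap.mk₂'ₛₗ (starRingEnd ℂ) (RingHom.id ℂ) l
    (fun v v' w => tendsto_nhds_unique (hl (v + v') w)
      (by simpa only [map_add, inner_add_left] using (hl v w).add (hl v' w)))
    (fun c v w => tendsto_nhds_unique (hl (c • v) w)
      (by simpa only [map_smul, inner_smul_left, smul_eq_mul] using (hl v w).const_mul _))
    (fun v w w' => tendsto_nhds_unique (hl v (w + w'))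
      (by simpa only [inner_add_right] using (hl v w).add (hl v w')))
    (fun c v w => tendsto_nhds_unique (hl v (c • w))
      (by simpa only [inner_smul_right, smul_eq_mul, RingHom.id_apply] using (hl v w).const_mul c))
  have hlb : ∀ v w, ‖l v w‖ ≤ ‖x‖ * ‖v‖ * ‖w‖ := fun v w =>
    le_of_tendsto (hl v w).norm (Eventually.of_forall fun s => hbd s v w)
  let a := InnerProductSpace.continuousLinearMapOfBilin (B0.mkContinuous₂ ‖x‖ hlb)
  have ha : ∀ v w, ⟪a v, w⟫_ℂ = l v w := fun v w =>
    InnerProductSpace.continuousLinearMapOfBilin_apply _ v w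
  have hsa : IsSelfAdjoint a := by
    refine LinearMap.IsSymmetric.isSelfAdjoint fun v w => ?_
    change ⟪a v, w⟫_ℂ = ⟪v, a w⟫_ℂ
    rw [ha, ← inner_conj_symm v (a w), ha]
    refine tendsto_nhds_unique (hl v w) (((Complex.continuous_conj.tendsto _).comp (hl w v)).congr
      fun s => ?_)
    simp only [Function.comp_apply, inner_conj_symm]
    rw [← ContinuousLinearMap.adjoint_inner_left, ← ContinuousLinearMap.star_eq_adjoint,
      (pinch_selfAdjoint hx _ (hIn s)).star_eq]
  have hcomm : ∀ p ∈ A, IsStarProjection p → a * p = p * a := by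
    intro p hp hpp
    ext v
    refine ext_inner_right ℂ fun w => ?_
    change ⟪a (p v), w⟫_ℂ = ⟪p (a v), w⟫_ℂ
    rw [inner_proj hpp, ha, ha]
    refine tendsto_nhds_unique_of_eventuallyEq (hl _ _) (hl _ _) ?_
    filter_upwards [hU (eventually_ge_atTop ({⟨p, hp, hpp⟩} : I))] with s hs
    have hc := pinch_comm hA x _ (hIn s) p (List.mem_map.2 ⟨⟨p, hp, hpp⟩,
      Finset.mem_toList.2 (hs (Finset.mem_singleton_self _)), rfl⟩)
    change ⟪(D s * p) v, w⟫_ℂ = ⟪D s v, p w⟫_ℂ
    rw [← hc]
    exact inner_proj hpp _ _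
  refine ⟨a, mem_of_comm_proj hA hcomm, hsa, ?_, ?_⟩
  · refine a.opNorm_le_bound (norm_nonneg _) fun v => ?_
    have h1 := hlb v (a v)
    rw [← ha, inner_self_eq_norm_sq_to_K, norm_pow] at h1
    simp only [RCLike.norm_ofReal, abs_norm] at h1
    rcases (norm_nonneg (a v)).eq_or_lt with h0 | h0
    · rw [← h0]; positivity
    · refine le_of_mul_le_mul_right ?_ h0
      linarith
  · let s0 : I := (L0.attach.map fun p => ⟨p.1, hL0 p.1 p.2⟩).toFinset
    have hev : ∀ᶠ s in (U : Filter I), s0 ⊆ s ∧ ∀ v ∈ F, ∀ w ∈ F,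
        ‖⟪D s v, w⟫_ℂ - l v w‖ ≤ η := by
      refine Filter.Eventually.and (hU (eventually_ge_atTop s0)) ?_
      refine (F.eventually_all).2 fun v _ => (F.eventually_all).2 fun w _ => ?_
      exact ((tendsto_iff_norm_sub_tendsto_zero.1 (hl v w)).eventually (eventually_le_nhds hη))
    obtain ⟨s, hs0, hs⟩ := hev.exists
    refine ⟨_, hIn s, fun p hp => List.mem_map.2 ⟨⟨p, hL0 p hp⟩, ?_, rfl⟩, fun v hv w hw => ?_⟩
    · exact Finset.mem_toList.2 (hs0 (List.mem_toFinset.2 (List.mem_map.2
        ⟨⟨p, hp⟩, List.mem_attach _ _, rfl⟩)))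
    · have := hs w hw v hv
      rw [← ha, ← inner_sub_left, ← norm_inner_symm] at this
      rw [sub_apply]
      exact this

end Vale.Agent.P078
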