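import Mathlib

/-!
Maximal abelian and diffuse algebras of operators.
-/

noncomputable section

namespace Vale.Agent.P078

variable {H : Type*} [NormedAddCommGroup H] [InnerProductSpace ℂ H] [CompleteSpace H]

/-- `A` is maximal abelian: it equals its commutant. -/
def IsMaxAbelian (A : StarSubalgebra ℂ (H →L[ℂ] H)) : Prop :=
  ∀ T : H →L[ℂ] H, T ∈ A ↔ ∀ b ∈ A, T * b = b * T

/-- `A` has no minimal projection. -/
def IsDiffuse (A : StarSubalgebra ℂ (H →L[ℂ] H)) : Prop :=
  ∀ p ∈ A, IsStarProjection p → p ≠ 0 →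
    ∃ q ∈ A, IsStarProjection q ∧ q ≠ 0 ∧ q ≠ p ∧ p * q = q

end Vale.Agent.P078
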