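import Mathlib

/-!
Algebra of the resolvents of `r y r`: the functions `Z`, their exact perturbation identity,
monotonicity under compression by a projection, and the cut move.
-/

namespace Vale.Agent.P078

variable {M : Type*} [Ring M] [Algebra ℝ M]

/-- `Z = σ z⁻¹ y + z⁻¹ y r G r y`. -/
noncomputable def resZ (z σ : ℝ) (y r G : M) : M := (σ / z) • y + (1 / z) • (y * r * G * r * y)

/-- `G` is the two sided inverse of `z - σ r y r`. -/
structure IsResolvent (z σ : ℝ) (y r G : M) : Prop where
  left : G * (z • (1 : M) - σ • (r * y * r)) = 1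
  right : (z • (1 : M) - σ • (r * y * r)) * G = 1

namespace IsResolvent

variable {z σ : ℝ} {y r G : M}

lemma sigma_mul_right (h : IsResolvent z σ y r G) :
    σ • (r * y * r * G) = z • G - 1 := by
  have := h.right
  rw [sub_mul, smul_mul_assoc, smul_mul_assoc, one_mul] at this
  rw [← this]; abel

lemma sigma_mul_left (h : IsResolvent z σ y r G) :
    σ • (G * (r * y * r)) = z • G - 1 := by
  have := h.left
  rw [mul_sub, mul_smul_comm, mul_smul_comm, mul_one] at this
  rw [← this]; abel

lemma r_mul_resZ (h : IsResolvent z σ y r G) (hz : z ≠ 0) (hσ : σ * σ = 1) :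
    r * resZ z σ y r G = σ • (G * r * y) := by
  have e : r * y * r * G = σ • (z • G - 1) := by
    rw [← h.sigma_mul_right, smul_smul, hσ, one_smul]
  have e' : r * (y * r * G * r * y) = σ • (z • G - 1) * r * y := by
    simp only [← mul_assoc, e]
  rw [resZ, mul_add, mul_smul_comm, mul_smul_comm, e']
  simp only [sub_mul, smul_mul_assoc, one_mul, smul_sub, smul_smul, mul_assoc]
  rw [show (1 / z * (σ * z) : ℝ) = σ by field_simp, show (1 / z * σ : ℝ) = σ / z by ring]
  abel

lemma resZ_mul_r (h : IsResolvent z σ y r G) (hz : z ≠ 0) (hσ : σ * σ = 1) :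
    resZ z σ y r G * r = σ • (y * r * G) := by
  have e : G * (r * y * r) = σ • (z • G - 1) := by
    rw [← h.sigma_mul_left, smul_smul, hσ, one_smul]
  have e' : y * r * G * r * y * r = y * r * (σ • (z • G - 1)) := by
    rw [← e]; simp only [mul_assoc]
  rw [resZ, add_mul, smul_mul_assoc, smul_mul_assoc, e']
  simp only [mul_sub, mul_smul_comm, mul_one, smul_sub, smul_smul, mul_assoc]
  rw [show (1 / z * (σ * z) : ℝ) = σ by field_simp, show (1 / z * σ : ℝ) = σ / z by ring]
  abel

lemma r_resZ_r (h : IsResolvent z σ y r G) (hz : z ≠ 0) (hσ : σ * σ = 1) :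
    r * resZ z σ y r G * r = z • G - 1 := by
  rw [h.r_mul_resZ hz hσ, smul_mul_assoc, ← h.sigma_mul_left]
  simp only [mul_assoc]

lemma resZ_R_resZ (h : IsResolvent z σ y r G) (hz : z ≠ 0) (hσ : σ * σ = 1) :
    resZ z σ y r G * (r * r) * resZ z σ y r G = y * r * (G * G) * r * y := by
  rw [← mul_assoc, h.resZ_mul_r hz hσ, mul_assoc, h.r_mul_resZ hz hσ, smul_mul_assoc,
    mul_smul_comm, smul_smul, hσ, one_smul]
  simp only [mul_assoc]

lemma resZ_eq_right (h : IsResolvent z σ y r G) (hz : z ≠ 0) (hσ : σ * σ = 1) :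
    resZ z σ y r G = (σ / z) • (y + resZ z σ y r G * (r * r) * y) := by
  rw [← mul_assoc _ r r, h.resZ_mul_r hz hσ, resZ, smul_add]
  simp only [smul_mul_assoc, smul_smul]
  rw [show (σ / z * σ : ℝ) = 1 / z by rw [div_mul_eq_mul_div, hσ]]

lemma resZ_eq_left (h : IsResolvent z σ y r G) (hz : z ≠ 0) (hσ : σ * σ = 1) :
    resZ z σ y r G = (σ / z) • (y + y * (r * r) * resZ z σ y r G) := by
  rw [show y * (r * r) * resZ z σ y r G = y * r * (r * resZ z σ y r G) by simp only [mul_assoc],
    h.r_mul_resZ hz hσ, resZ, smul_add]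
  simp only [mul_smul_comm, smul_smul]
  rw [show (σ / z * σ : ℝ) = 1 / z by rw [div_mul_eq_mul_div, hσ]]
  simp only [mul_assoc]

/-- Exact perturbation identity: `Z' - Z = Z' (R' - R) Z`, with `R = r²`, `R' = r'²`. -/
theorem resZ_sub (h : IsResolvent z σ y r G) {r' G' : M} (h' : IsResolvent z σ y r' G')
    (hz : z ≠ 0) (hσ : σ * σ = 1) :
    resZ z σ y r' G' - resZ z σ y r G =
      resZ z σ y r' G' * (r' * r' - r * r) * resZ z σ y r G := by
  set Z := resZ z σ y r G with hZ
  set Z' := resZ z σ y r' G' with hZ'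
  have e1 : Z = (σ / z) • (y + y * (r * r) * Z) := h.resZ_eq_left hz hσ
  have e2 : Z' = (σ / z) • (y + Z' * (r' * r') * y) := h'.resZ_eq_right hz hσ
  have a : Z' * (r' * r') * Z =
      (σ / z) • (Z' * (r' * r') * y) + (σ / z) • (Z' * (r' * r') * y * (r * r) * Z) := by
    conv_lhs => rw [e1]
    simp only [mul_smul_comm, mul_add, smul_add, mul_assoc]
  have b : Z' * (r * r) * Z =
      (σ / z) • (y * (r * r) * Z) + (σ / z) • (Z' * (r' * r') * y * (r * r) * Z) := by
    conv_lhs => rw [e2]
    simp only [smul_mul_assoc, add_mul, smul_add, mul_assoc]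
  rw [mul_sub, sub_mul, a, b]
  conv_lhs => rw [e1, e2]
  simp only [smul_add]
  abel

end IsResolvent

section compress

variable [StarRing M]

omit [Algebra ℝ M] in
/-- Compression by a projection decreases the inverse: `G - g G' g` is a square. -/
theorem compress_eq_square {g G G' m : M} (hg : star g = g) (hgg : g * g = g)
    (hG : star G = G) (hG' : star G' = G') (hcomm : Commute g G')
    (hA : G * (star m * m) = 1) (hA' : (star m * m) * G = 1)
    (hG'A : g * G' * (g * (star m * m) * g) = g) :
    G - g * G' * g = star (m * (G - g * G' * g)) * (m * (G - g * G' * g)) := by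
  have hD : star (G - g * G' * g) = G - g * G' * g := by
    simp only [star_sub, star_mul, hG, hG', hg, mul_assoc]
  have hP : g * G' * g = g * G' := by rw [mul_assoc, ← hcomm.eq, ← mul_assoc, hgg]
  have k1 : g * G' * g * (star m * m) * (g * G' * g) = g * G' * g := by
    calc g * G' * g * (star m * m) * (g * G' * g)
        = g * G' * (g * (star m * m) * g) * (G' * g) := by simp only [mul_assoc]
      _ = g * (G' * g) := by rw [hG'A]
      _ = g * G' * g := by rw [mul_assoc]
  rw [star_mul, hD, show (G - g * G' * g) * star m * (m * (G - g * G' * g)) =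
    (G - g * G' * g) * (star m * m) * (G - g * G' * g) by simp only [mul_assoc]]
  rw [sub_mul, hA, sub_mul, mul_sub, mul_sub, one_mul, one_mul, k1,
    mul_assoc (g * G' * g) (star m * m) G, hA', mul_one]
  abel

omit [StarRing M] in
/-- The hypotheses of `compress_eq_square` from the two resolvent equations. -/
lemma compress_inverse {z σ : ℝ} {g B G' : M} (hgg : g * g = g)
    (hl : G' * (z • (1 : M) - σ • (g * B * g)) = 1)
    (hr : (z • (1 : M) - σ • (g * B * g)) * G' = 1) :
    Commute g G' ∧ g * G' * (g * (z • (1 : M) - σ • B) * g) = g := by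
  set A' : M := z • (1 : M) - σ • (g * B * g) with hA'
  have hc : g * A' = A' * g := by
    simp only [hA', mul_sub, sub_mul, mul_smul_comm, smul_mul_assoc, mul_one, one_mul,
      ← mul_assoc, hgg]
    simp only [mul_assoc, hgg]
  have e : g * (z • (1 : M) - σ • B) * g = A' * g := by
    simp only [hA', mul_sub, sub_mul, mul_smul_comm, smul_mul_assoc, mul_one, one_mul, hgg,
      mul_assoc]
  refine ⟨?_, ?_⟩
  · calc g * G' = G' * A' * (g * G') := by rw [hl, one_mul]
      _ = G' * (A' * g) * G' := by simp only [mul_assoc]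
      _ = G' * g * (A' * G') := by rw [← hc]; simp only [mul_assoc]
      _ = G' * g := by rw [hr, mul_one]
  · rw [e, mul_assoc g G', ← mul_assoc G', hl, one_mul, hgg]

end compress

omit [Algebra ℝ M] in
/-- Second order expansion from the perturbation identity `W - Z = W X Z`. -/
theorem expand_two {W Z X : M} (h : W - Z = W * X * Z) :
    W = Z + Z * X * Z + Z * X * Z * X * Z + W * X * Z * X * Z * X * Z := by
  have e : W = Z + W * X * Z := by rw [← h]; abel
  have e1 : W * X * Z = Z * X * Z + W * X * Z * X * Z := by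
    conv_lhs => rw [e]
    simp only [add_mul]
  have e2 : W * X * Z * X * Z = Z * X * Z * X * Z + W * X * Z * X * Z * X * Z := by
    conv_lhs => rw [e]
    simp only [add_mul]
  conv_lhs => rw [e, e1, e2]
  abel

omit [Algebra ℝ M] in
/-- The cut: with `h B = B h = f` one has `r y' = (1 - f) r y` and `y' R y' = y r (1-f) r y`. -/
theorem cut_eqs {y r h f : M} (hBh : r * y * r * h = f) (hhB : h * (r * y * r) = f)
    (hff : f * f = f) :
    let y' := y - y * r * h * r * y
    r * y' = (1 - f) * (r * y) ∧ r * y' * r = (1 - f) * (r * y * r) ∧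
      y' * (r * r) * y' = y * r * (1 - f) * (r * y) := by
  intro y'
  have e1 : r * y' = (1 - f) * (r * y) := by
    simp only [y', mul_sub, sub_mul, one_mul, ← mul_assoc, hBh]
  have e2 : y' * r = y * r * (1 - f) := by
    simp only [y', sub_mul, mul_sub, mul_one, mul_assoc] at hhB ⊢
    rw [hhB]
  refine ⟨e1, by rw [e1]; simp only [mul_assoc], ?_⟩
  rw [← mul_assoc, e2, mul_assoc, e1, ← mul_assoc, mul_assoc (y * r) (1 - f) (1 - f)]
  congr 2
  simp [mul_sub, sub_mul, hff]

end Vale.Agent.P078
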