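import Mathlib

/-!
Algebra of the second variation: in a star algebra with a real valued positive trace, the
quadratic form of the second variation plus explicit diagonal forms is nonnegative.
-/

namespace Vale.Agent.P078

variable {M : Type*} [Ring M] [StarRing M] [Algebra ℝ M] [StarModule ℝ M]

/-- A real valued positive tracial functional, invariant under the involution. -/
structure IsRealTrace (τ : M →ₗ[ℝ] ℝ) : Prop where
  nonneg : ∀ a, 0 ≤ τ (star a * a)
  comm : ∀ a b, τ (a * b) = τ (b * a)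
  star_eq : ∀ a, τ (star a) = τ a

namespace IsRealTrace

variable {τ : M →ₗ[ℝ] ℝ} (hτ : IsRealTrace τ)
include hτ

/-- Cauchy-Schwarz with a weight. -/
lemma inner_ge (a b : M) {t : ℝ} (ht : 0 < t) :
    -(t * τ (star a * a) + τ (star b * b) / (4 * t)) ≤ τ (star a * b) := by
  have hsym : τ (star b * a) = τ (star a * b) := by
    rw [← hτ.star_eq (star b * a), star_mul, star_star]
  have h := hτ.nonneg ((2 * t) • a + b)
  simp only [star_add, star_smul, star_trivial, add_mul, mul_add, smul_mul_assoc, mul_smul_comm,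
    map_add, map_smul, smul_eq_mul, hsym] at h
  have : τ (star a * b) + (t * τ (star a * a) + τ (star b * b) / (4 * t)) =
      ((2 * t) * ((2 * t) * τ (star a * a)) + (2 * t) * τ (star a * b) +
        ((2 * t) * τ (star a * b) + τ (star b * b))) / (4 * t) := by
    field_simp
    ring
  have h2 : 0 ≤ τ (star a * b) + (t * τ (star a * a) + τ (star b * b) / (4 * t)) := by
    rw [this]
    exact div_nonneg (by linarith) (by linarith)
  linarith

omit [StarModule ℝ M] in
/-- The trace of a product of two positive elements is nonnegative. -/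
lemma mul_nonneg' (a b : M) : 0 ≤ τ (star a * a * (star b * b)) := by
  have h := hτ.nonneg (a * star b)
  rw [star_mul, star_star] at h
  rw [← mul_assoc, hτ.comm]
  simpa [mul_assoc] using h

end IsRealTrace

section bounds

variable {A : Type*} [CommRing A] [Algebra ℝ A] (ι : A →ₐ[ℝ] M)

/-- The second variation forms of one colour and one sign, at `Z = σ z⁻¹ Y + k* k`. -/
def signForm (τ : M →ₗ[ℝ] ℝ) (u Λ f : A) (Z : M) : ℝ :=
  τ (ι u * Z * ι f * Z * ι f * Z) + τ (ι Λ * ι f * Z * ι f * Z)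

/-- The diagonal forms bounding `signForm` from below. -/
noncomputable def signBound (τ : M →ₗ[ℝ] ℝ) (u Λ R g f : A) (Y k Z : M) (z β : ℝ) : ℝ :=
  τ (ι u * Z * ι (g * g) * Z) + (1 / 4 + β) * τ (ι (Λ * (g * g)) * (star k * k)) +
    (τ (ι (Λ * (g * g)) * Y * ι R * Y) + τ (ι (g * g) * Y * ι u * Y)) / (2 * z ^ 2) +
      τ (ι u * Y * ι f * (star k * k) * ι f * Y) / (4 * β * z ^ 2)

variable {ι} {τ : M →ₗ[ℝ] ℝ}

omit [StarModule ℝ M] in
/-- The sandwich identity: elements of the commutative algebra pass to the outside. -/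
lemma tau_sand (hτ : IsRealTrace τ) (hι : ∀ a, star (ι a) = ι a) (p q p' q' : A) (X X' : M) :
    τ (star (ι p * X * ι q) * (ι p' * X' * ι q')) = τ (ι (q' * q) * star X * ι (p * p') * X') := by
  have e : star (ι p * X * ι q) * (ι p' * X' * ι q') =
      (ι q * star X * ι (p * p') * X') * ι q' := by
    simp only [star_mul, hι, map_mul, mul_assoc]
  rw [e, hτ.comm]
  simp only [map_mul, mul_assoc]

omit [StarModule ℝ M] in
lemma tau_sand_self (hτ : IsRealTrace τ) (hι : ∀ a, star (ι a) = ι a) (p q : A) (X : M) :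
    0 ≤ τ (ι (q * q) * star X * ι (p * p) * X) := by
  rw [← tau_sand hτ hι p q p q X X]
  exact hτ.nonneg _

omit [StarModule ℝ M] in
lemma tau_sq_mul_nonneg (hτ : IsRealTrace τ) (hι : ∀ a, star (ι a) = ι a) (q : A) (X : M) :
    0 ≤ τ (ι (q * q) * star X * X) := by
  have h := tau_sand_self hτ hι 1 q X
  simpa using h

omit [StarModule ℝ M] in
lemma tau_sand_swap (hτ : IsRealTrace τ) {Y : M} (hY : star Y = Y) (hι : ∀ a, star (ι a) = ι a)
    (a b : A) : τ (ι a * Y * ι b * Y) = τ (ι b * Y * ι a * Y) := by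
  rw [← hτ.star_eq (ι a * Y * ι b * Y), show star (ι a * Y * ι b * Y) = Y * ι b * Y * ι a by
    simp only [star_mul, hι, hY, mul_assoc]]
  conv_rhs => rw [hτ.comm]
  simp only [mul_assoc]

/-- The cross term `Λ f Y f Y` against its two diagonal forms. -/
lemma abs_cross_le (hτ : IsRealTrace τ) (hι : ∀ a, star (ι a) = ι a) {Y : M} (hY : star Y = Y)
    {Λ u r g lr v f : A} (hlr : lr * lr = Λ) (hu : u = Λ * (r * r) + v * v) (hf : f = g * r) :
    |τ (ι Λ * ι f * Y * ι f * Y)| ≤
      (τ (ι (Λ * (g * g)) * Y * ι (r * r) * Y) + τ (ι (g * g) * Y * ι u * Y)) / 2 := by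
  set a : M := ι r * Y * ι (g * lr) with ha
  set b : M := ι g * Y * ι (r * lr) with hb
  have eab : τ (star a * b) = τ (ι Λ * ι f * Y * ι f * Y) := by
    rw [ha, hb, tau_sand hτ hι, hY, show r * lr * (g * lr) = Λ * f by rw [hf, ← hlr]; ring,
      show r * g = f by rw [hf, mul_comm], map_mul ι Λ f]
  have ea : τ (star a * a) = τ (ι (Λ * (g * g)) * Y * ι (r * r) * Y) := by
    rw [ha, tau_sand hτ hι, hY, ← hlr]
    congr 4; congr 1; ring
  have eb : τ (star b * b) = τ (ι (g * g) * Y * ι (Λ * (r * r)) * Y) := by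
    rw [hb, tau_sand hτ hι, hY, tau_sand_swap hτ hY hι, ← hlr]
    congr 2; congr 1; congr 1; ring
  have hv : 0 ≤ τ (ι (g * g) * Y * ι (v * v) * Y) := by
    have h := tau_sand_self hτ hι v g Y
    rwa [hY] at h
  have eu : τ (ι (g * g) * Y * ι u * Y) =
      τ (ι (g * g) * Y * ι (Λ * (r * r)) * Y) + τ (ι (g * g) * Y * ι (v * v) * Y) := by
    rw [hu, map_add ι, mul_add, add_mul, map_add]
  have h1 := hτ.inner_ge a b (t := 1 / 2) (by norm_num)
  have h2 := hτ.inner_ge a (-b) (t := 1 / 2) (by norm_num)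
  simp only [mul_neg, star_neg, neg_mul, neg_neg, map_neg] at h2
  rw [eab, ea, eb] at h1 h2
  rw [eu, abs_le]
  constructor <;> linarith

/-- One sign of the second variation, bounded below by its diagonal forms. -/
theorem neg_signBound_le_signForm (hτ : IsRealTrace τ) (hι : ∀ a, star (ι a) = ι a)
    {Y k m Z : M} (hY : star Y = Y) {Λ u r g lr v f : A} (hlr : lr * lr = Λ)
    (hu : u = Λ * (r * r) + v * v) (hf : f = g * r) {z σ β : ℝ} (hz : 0 < z) (hσ : σ ^ 2 = 1)
    (hβ : 0 < β) (hZ : Z = (σ / z) • Y + star k * k)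
    (hm : star m * m = z • (1 : M) + σ • (ι r * Y * ι r)) :
    -signBound ι τ u Λ (r * r) g f Y k Z z β ≤ signForm ι τ u Λ f Z := by
  set K : M := star k * k with hK
  have hKs : star K = K := by rw [hK, star_mul, star_star]
  have hZs : star Z = Z := by rw [hZ, star_add, star_smul, star_trivial, hY, hKs]
  have hpos : ∀ X : M, τ (ι (Λ * (r * r)) * star X * X) ≤ τ (ι u * star X * X) ∧
      0 ≤ τ (ι (Λ * (r * r)) * star X * X) := fun X => by
    have h1 := tau_sq_mul_nonneg hτ hι v X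
    have h2 := tau_sq_mul_nonneg hτ hι (lr * r) X
    rw [show (lr * r) * (lr * r) = Λ * (r * r) by rw [← hlr]; ring] at h2
    refine ⟨?_, h2⟩
    rw [hu, map_add ι, add_mul, add_mul, map_add]
    linarith
  -- the middle factor of the cubic term
  have hg : star (m * ι g) * (m * ι g) = z • ι (g * g) + σ • (ι f * Y * ι f) := by
    rw [star_mul, hι, show ι g * star m * (m * ι g) = ι g * (star m * m) * ι g by
      simp only [mul_assoc], hm]
    simp only [mul_add, add_mul, mul_smul_comm, smul_mul_assoc, mul_one, hf, map_mul, mul_assoc]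
    congr 3
    rw [show ι r * ι g = ι g * ι r by rw [← map_mul, ← map_mul, mul_comm]]
  have hcub : -τ (ι u * Z * ι (g * g) * Z) ≤ σ / z * τ (ι u * Z * ι f * Y * ι f * Z) := by
    have h1 := (hpos (m * ι g * Z)).2.trans (hpos (m * ι g * Z)).1
    have e : ι u * star (m * ι g * Z) * (m * ι g * Z) =
        ι u * Z * (z • ι (g * g) + σ • (ι f * Y * ι f)) * Z := by
      rw [← hg]
      simp only [star_mul, hZs, mul_assoc]
    rw [e] at h1
    simp only [mul_add, add_mul, mul_smul_comm, smul_mul_assoc, map_add, map_smul, smul_eq_mul,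
      ← mul_assoc] at h1
    rw [div_mul_eq_mul_div, le_div_iff₀ hz]
    linarith
  -- completion of the square
  set x : M := ι 1 * (k * ι g) * ι lr with hx
  set y : M := ι 1 * (k * ι f * Z) * ι (r * lr) with hy
  set w : M := ι 1 * (k * ι f * Y) * ι (r * lr) with hw
  have hxx : τ (star x * x) = τ (ι (Λ * (g * g)) * K) := by
    rw [hx, tau_sand hτ hι, hlr]
    simp only [mul_one, map_one, star_mul, hι, ← mul_assoc]
    rw [hτ.comm, hK]
    simp only [← mul_assoc, ← map_mul ι]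
    rw [show g * Λ * g = Λ * g * g by ring]
  have hcross : ∀ X : M, τ (star x * (ι 1 * (k * ι f * X) * ι (r * lr))) =
      τ (ι Λ * ι f * K * ι f * X) := fun X => by
    rw [hx, tau_sand hτ hι, show r * lr * lr = r * Λ by rw [mul_assoc, hlr]]
    simp only [mul_one, map_one, star_mul, hι, hK, ← mul_assoc, ← map_mul ι]
    rw [show r * Λ * g = Λ * f by rw [hf]; ring]
  have hyy : τ (star y * y) ≤ τ (ι u * Z * ι f * K * ι f * Z) := by
    obtain ⟨h1, -⟩ := hpos (k * ι f * Z)
    rw [hy, tau_sand hτ hι]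
    have e2 : r * lr * (r * lr) = Λ * (r * r) := by rw [← hlr]; ring
    simp only [e2, mul_one, map_one, star_mul, hZs, hι, hK, ← mul_assoc] at h1 ⊢
    exact h1
  have hww : τ (star w * w) ≤ τ (ι u * Y * ι f * K * ι f * Y) := by
    obtain ⟨h1, -⟩ := hpos (k * ι f * Y)
    rw [hw, tau_sand hτ hι]
    have e2 : r * lr * (r * lr) = Λ * (r * r) := by rw [← hlr]; ring
    simp only [e2, mul_one, map_one, star_mul, hY, hι, hK, ← mul_assoc] at h1 ⊢
    exact h1
  have hswap : τ (ι Λ * ι f * Z * ι f * K) = τ (ι Λ * ι f * K * ι f * Z) := by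
    rw [← hτ.star_eq (ι Λ * ι f * Z * ι f * K)]
    rw [show star (ι Λ * ι f * Z * ι f * K) = K * ι f * Z * (ι f * ι Λ) by
      simp only [star_mul, hι, hZs, hKs, mul_assoc]]
    rw [hτ.comm, show ι f * ι Λ = ι Λ * ι f by rw [← map_mul, ← map_mul, mul_comm]]
    simp only [mul_assoc]
  have hc1 := hτ.inner_ge x y (t := 1 / 4) (by norm_num)
  rw [hy, hcross, ← hy, hxx, ← hswap] at hc1
  have hc2 := hτ.inner_ge x ((σ / z) • w) hβ
  rw [star_smul, show star (σ / z) = σ / z from star_trivial _] at hc2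
  simp only [mul_smul_comm, smul_mul_assoc] at hc2
  simp only [map_smul, smul_eq_mul] at hc2
  rw [hw, hcross, ← hw, hxx] at hc2
  have hsz : σ / z * (σ / z) = 1 / z ^ 2 := by rw [← hσ]; field_simp
  rw [← mul_assoc (σ / z), hsz] at hc2
  have hw' : 1 / z ^ 2 * τ (star w * w) / (4 * β) ≤
      τ (ι u * Y * ι f * K * ι f * Y) / (4 * β * z ^ 2) := by
    rw [show 1 / z ^ 2 * τ (star w * w) / (4 * β) = τ (star w * w) / (4 * β * z ^ 2) by
      field_simp]
    gcongr
  have hy4 : τ (star y * y) / (4 * (1 / 4)) = τ (star y * y) := by norm_num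
  rw [hy4] at hc1
  have habs := abs_cross_le hτ hι hY (Λ := Λ) (u := u) hlr hu hf
  have e1 : τ (ι u * Z * ι f * Z * ι f * Z) =
      σ / z * τ (ι u * Z * ι f * Y * ι f * Z) + τ (ι u * Z * ι f * K * ι f * Z) := by
    rw [show ι u * Z * ι f * Z * ι f * Z =
      ι u * Z * ι f * ((σ / z) • Y + K) * ι f * Z by rw [← hZ]]
    simp only [mul_add, add_mul, mul_smul_comm, smul_mul_assoc, map_add, map_smul, smul_eq_mul]
  have e2 : τ (ι Λ * ι f * Z * ι f * Z) = τ (ι Λ * ι f * Z * ι f * K) +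
      σ / z * τ (ι Λ * ι f * K * ι f * Y) + 1 / z ^ 2 * τ (ι Λ * ι f * Y * ι f * Y) := by
    have a1 : τ (ι Λ * ι f * Z * ι f * Z) = τ (ι Λ * ι f * Z * ι f * K) +
        σ / z * τ (ι Λ * ι f * Z * ι f * Y) := by
      rw [show ι Λ * ι f * Z * ι f * Z = ι Λ * ι f * Z * ι f * ((σ / z) • Y + K) by rw [← hZ]]
      simp only [mul_add, mul_smul_comm, map_add, map_smul, smul_eq_mul]
      ring
    have a2 : τ (ι Λ * ι f * Z * ι f * Y) =
        σ / z * τ (ι Λ * ι f * Y * ι f * Y) + τ (ι Λ * ι f * K * ι f * Y) := by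
      rw [hZ]
      simp only [mul_add, add_mul, mul_smul_comm, smul_mul_assoc, map_add, map_smul, smul_eq_mul]
    rw [a1, a2, ← hsz]; ring
  have hsc : -((τ (ι (Λ * (g * g)) * Y * ι (r * r) * Y) + τ (ι (g * g) * Y * ι u * Y)) /
      (2 * z ^ 2)) ≤ 1 / z ^ 2 * τ (ι Λ * ι f * Y * ι f * Y) := by
    have h := mul_le_mul_of_nonneg_left (abs_le.1 habs).1 (show 0 ≤ 1 / z ^ 2 by positivity)
    rw [show (τ (ι (Λ * (g * g)) * Y * ι (r * r) * Y) + τ (ι (g * g) * Y * ι u * Y)) / (2 * z ^ 2) =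
      1 / z ^ 2 * ((τ (ι (Λ * (g * g)) * Y * ι (r * r) * Y) + τ (ι (g * g) * Y * ι u * Y)) / 2) by
      ring, ← mul_neg]
    exact h
  simp only [signForm, signBound, ← hK]
  linarith

/-- One colour: both signs and the load form, bounded below by the diagonal forms. -/
theorem neg_colourBound_le (hτ : IsRealTrace τ) (hι : ∀ a, star (ι a) = ι a)
    {Y k₁ k₂ m₁ m₂ Z₁ Z₂ : M} (hY : star Y = Y) {Λ u r g lr v f : A} (hlr : lr * lr = Λ)
    (hu : u = Λ * (r * r) + v * v) (hf : f = g * r) {z β : ℝ} (hz : 0 < z) (hβ : 0 < β)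
    (hZ₁ : Z₁ = (1 / z) • Y + star k₁ * k₁) (hZ₂ : Z₂ = ((-1) / z) • Y + star k₂ * k₂)
    (hm₁ : star m₁ * m₁ = z • (1 : M) + (1 : ℝ) • (ι r * Y * ι r))
    (hm₂ : star m₂ * m₂ = z • (1 : M) + (-1 : ℝ) • (ι r * Y * ι r)) :
    -(signBound ι τ u Λ (r * r) g f Y k₁ Z₁ z β + signBound ι τ u Λ (r * r) g f Y k₂ Z₂ z β +
        (τ (ι (Λ * (g * g)) * Y * ι (r * r) * Y) + τ (ι (g * g) * Y * ι u * Y)) / (2 * z ^ 2)) ≤
      signForm ι τ u Λ f Z₁ + signForm ι τ u Λ f Z₂ + τ (ι Λ * ι f * Y * ι f * Y) / z ^ 2 := by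
  have h₁ := neg_signBound_le_signForm hτ hι hY hlr hu hf hz (σ := 1) (by norm_num) hβ hZ₁ hm₁
  have h₂ := neg_signBound_le_signForm hτ hι hY hlr hu hf hz (σ := -1) (by norm_num) hβ hZ₂ hm₂
  have habs := (abs_le.1 (abs_cross_le hτ hι hY (Λ := Λ) (u := u) hlr hu hf)).1
  have h₃ : -((τ (ι (Λ * (g * g)) * Y * ι (r * r) * Y) + τ (ι (g * g) * Y * ι u * Y)) /
      (2 * z ^ 2)) ≤ τ (ι Λ * ι f * Y * ι f * Y) / z ^ 2 := by
    rw [le_div_iff₀ (by positivity : (0 : ℝ) < z ^ 2), neg_mul, div_mul_eq_mul_div,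
      mul_comm (2 : ℝ), ← div_div, mul_div_assoc, div_self (by positivity : (z ^ 2 : ℝ) ≠ 0),
      mul_one]
    linarith
  linarith

end bounds

end Vale.Agent.P078
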